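import Vale.Agent.P355.H950T.Ct0
import Vale.Agent.P355.H950T.Ct1
import Vale.Agent.P355.H950T.Ct2
import Vale.Agent.P355.H950T.Ct3

namespace Vale.Agent.P355.H950T

open Vale.Agent.P355.H387 (CT)

def lz : CT := .lf 0

def n11_0 : CT := .nd l0_ l2048_
def n11_1024 : CT := .nd l1024_ lz
def n10_0 : CT := .nd n11_0 n11_1024
def n11_512 : CT := .nd l512_ l2560_
def n11_1536 : CT := .nd l1536_ lz
def n10_512 : CT := .nd n11_512 n11_1536
def n9_0 : CT := .nd n10_0 n10_512
def n11_256 : CT := .nd l256_ l2304_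
def n11_1280 : CT := .nd l1280_ lz
def n10_256 : CT := .nd n11_256 n11_1280
def n11_768 : CT := .nd l768_ l2816_
def n11_1792 : CT := .nd l1792_ lz
def n10_768 : CT := .nd n11_768 n11_1792
def n9_256 : CT := .nd n10_256 n10_768
def n8_0 : CT := .nd n9_0 n9_256
def n11_128 : CT := .nd l128_ l2176_
def n11_1152 : CT := .nd l1152_ lz
def n10_128 : CT := .nd n11_128 n11_1152
def n11_640 : CT := .nd l640_ l2688_
def n11_1664 : CT := .nd l1664_ lz
def n10_640 : CT := .nd n11_640 n11_1664
def n9_128 : CT := .nd n10_128 n10_640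
def n11_384 : CT := .nd l384_ l2432_
def n11_1408 : CT := .nd l1408_ lz
def n10_384 : CT := .nd n11_384 n11_1408
def n11_896 : CT := .nd l896_ l2944_
def n11_1920 : CT := .nd l1920_ lz
def n10_896 : CT := .nd n11_896 n11_1920
def n9_384 : CT := .nd n10_384 n10_896
def n8_128 : CT := .nd n9_128 n9_384
def n7_0 : CT := .nd n8_0 n8_128
def n11_64 : CT := .nd l64_ l2112_
def n11_1088 : CT := .nd l1088_ lz
def n10_64 : CT := .nd n11_64 n11_1088
def n11_576 : CT := .nd l576_ l2624_
def n11_1600 : CT := .nd l1600_ lz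
def n10_576 : CT := .nd n11_576 n11_1600
def n9_64 : CT := .nd n10_64 n10_576
def n11_320 : CT := .nd l320_ l2368_
def n11_1344 : CT := .nd l1344_ lz
def n10_320 : CT := .nd n11_320 n11_1344
def n11_832 : CT := .nd l832_ l2880_
def n11_1856 : CT := .nd l1856_ lz
def n10_832 : CT := .nd n11_832 n11_1856
def n9_320 : CT := .nd n10_320 n10_832
def n8_64 : CT := .nd n9_64 n9_320
def n11_192 : CT := .nd l192_ l2240_
def n11_1216 : CT := .nd l1216_ lz
def n10_192 : CT := .nd n11_192 n11_1216
def n11_704 : CT := .nd l704_ l2752_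
def n11_1728 : CT := .nd l1728_ lz
def n10_704 : CT := .nd n11_704 n11_1728
def n9_192 : CT := .nd n10_192 n10_704
def n11_448 : CT := .nd l448_ l2496_
def n11_1472 : CT := .nd l1472_ lz
def n10_448 : CT := .nd n11_448 n11_1472
def n11_960 : CT := .nd l960_ lz
def n11_1984 : CT := .nd l1984_ lz
def n10_960 : CT := .nd n11_960 n11_1984
def n9_448 : CT := .nd n10_448 n10_960
def n8_192 : CT := .nd n9_192 n9_448
def n7_64 : CT := .nd n8_64 n8_192
def n6_0 : CT := .nd n7_0 n7_64
def n11_32 : CT := .nd l32_ l2080_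
def n11_1056 : CT := .nd l1056_ lz
def n10_32 : CT := .nd n11_32 n11_1056
def n11_544 : CT := .nd l544_ l2592_
def n11_1568 : CT := .nd l1568_ lz
def n10_544 : CT := .nd n11_544 n11_1568
def n9_32 : CT := .nd n10_32 n10_544
def n11_288 : CT := .nd l288_ l2336_
def n11_1312 : CT := .nd l1312_ lz
def n10_288 : CT := .nd n11_288 n11_1312
def n11_800 : CT := .nd l800_ l2848_
def n11_1824 : CT := .nd l1824_ lz
def n10_800 : CT := .nd n11_800 n11_1824
def n9_288 : CT := .nd n10_288 n10_800
def n8_32 : CT := .nd n9_32 n9_288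
def n11_160 : CT := .nd l160_ l2208_
def n11_1184 : CT := .nd l1184_ lz
def n10_160 : CT := .nd n11_160 n11_1184
def n11_672 : CT := .nd l672_ l2720_
def n11_1696 : CT := .nd l1696_ lz
def n10_672 : CT := .nd n11_672 n11_1696
def n9_160 : CT := .nd n10_160 n10_672
def n11_416 : CT := .nd l416_ l2464_
def n11_1440 : CT := .nd l1440_ lz
def n10_416 : CT := .nd n11_416 n11_1440
def n11_928 : CT := .nd l928_ l2976_
def n11_1952 : CT := .nd l1952_ lz
def n10_928 : CT := .nd n11_928 n11_1952
def n9_416 : CT := .nd n10_416 n10_928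
def n8_160 : CT := .nd n9_160 n9_416
def n7_32 : CT := .nd n8_32 n8_160
def n11_96 : CT := .nd l96_ l2144_
def n11_1120 : CT := .nd l1120_ lz
def n10_96 : CT := .nd n11_96 n11_1120
def n11_608 : CT := .nd l608_ l2656_
def n11_1632 : CT := .nd l1632_ lz
def n10_608 : CT := .nd n11_608 n11_1632
def n9_96 : CT := .nd n10_96 n10_608
def n11_352 : CT := .nd l352_ l2400_
def n11_1376 : CT := .nd l1376_ lz
def n10_352 : CT := .nd n11_352 n11_1376
def n11_864 : CT := .nd l864_ l2912_
def n11_1888 : CT := .nd l1888_ lz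
def n10_864 : CT := .nd n11_864 n11_1888
def n9_352 : CT := .nd n10_352 n10_864
def n8_96 : CT := .nd n9_96 n9_352
def n11_224 : CT := .nd l224_ l2272_
def n11_1248 : CT := .nd l1248_ lz
def n10_224 : CT := .nd n11_224 n11_1248
def n11_736 : CT := .nd l736_ l2784_
def n11_1760 : CT := .nd l1760_ lz
def n10_736 : CT := .nd n11_736 n11_1760
def n9_224 : CT := .nd n10_224 n10_736
def n11_480 : CT := .nd l480_ l2528_
def n11_1504 : CT := .nd l1504_ lz
def n10_480 : CT := .nd n11_480 n11_1504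
def n11_992 : CT := .nd l992_ lz
def n11_2016 : CT := .nd l2016_ lz
def n10_992 : CT := .nd n11_992 n11_2016
def n9_480 : CT := .nd n10_480 n10_992
def n8_224 : CT := .nd n9_224 n9_480
def n7_96 : CT := .nd n8_96 n8_224
def n6_32 : CT := .nd n7_32 n7_96
def n5_0 : CT := .nd n6_0 n6_32
def n11_16 : CT := .nd l16_ l2064_
def n11_1040 : CT := .nd l1040_ lz
def n10_16 : CT := .nd n11_16 n11_1040
def n11_528 : CT := .nd l528_ l2576_
def n11_1552 : CT := .nd l1552_ lz
def n10_528 : CT := .nd n11_528 n11_1552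
def n9_16 : CT := .nd n10_16 n10_528
def n11_272 : CT := .nd l272_ l2320_
def n11_1296 : CT := .nd l1296_ lz
def n10_272 : CT := .nd n11_272 n11_1296
def n11_784 : CT := .nd l784_ l2832_
def n11_1808 : CT := .nd l1808_ lz
def n10_784 : CT := .nd n11_784 n11_1808
def n9_272 : CT := .nd n10_272 n10_784
def n8_16 : CT := .nd n9_16 n9_272
def n11_144 : CT := .nd l144_ l2192_
def n11_1168 : CT := .nd l1168_ lz
def n10_144 : CT := .nd n11_144 n11_1168
def n11_656 : CT := .nd l656_ l2704_
def n11_1680 : CT := .nd l1680_ lz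
def n10_656 : CT := .nd n11_656 n11_1680
def n9_144 : CT := .nd n10_144 n10_656
def n11_400 : CT := .nd l400_ l2448_
def n11_1424 : CT := .nd l1424_ lz
def n10_400 : CT := .nd n11_400 n11_1424
def n11_912 : CT := .nd l912_ l2960_
def n11_1936 : CT := .nd l1936_ lz
def n10_912 : CT := .nd n11_912 n11_1936
def n9_400 : CT := .nd n10_400 n10_912
def n8_144 : CT := .nd n9_144 n9_400
def n7_16 : CT := .nd n8_16 n8_144
def n11_80 : CT := .nd l80_ l2128_
def n11_1104 : CT := .nd l1104_ lz
def n10_80 : CT := .nd n11_80 n11_1104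
def n11_592 : CT := .nd l592_ l2640_
def n11_1616 : CT := .nd l1616_ lz
def n10_592 : CT := .nd n11_592 n11_1616
def n9_80 : CT := .nd n10_80 n10_592
def n11_336 : CT := .nd l336_ l2384_
def n11_1360 : CT := .nd l1360_ lz
def n10_336 : CT := .nd n11_336 n11_1360
def n11_848 : CT := .nd l848_ l2896_
def n11_1872 : CT := .nd l1872_ lz
def n10_848 : CT := .nd n11_848 n11_1872
def n9_336 : CT := .nd n10_336 n10_848
def n8_80 : CT := .nd n9_80 n9_336
def n11_208 : CT := .nd l208_ l2256_
def n11_1232 : CT := .nd l1232_ lz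
def n10_208 : CT := .nd n11_208 n11_1232
def n11_720 : CT := .nd l720_ l2768_
def n11_1744 : CT := .nd l1744_ lz
def n10_720 : CT := .nd n11_720 n11_1744
def n9_208 : CT := .nd n10_208 n10_720
def n11_464 : CT := .nd l464_ l2512_
def n11_1488 : CT := .nd l1488_ lz
def n10_464 : CT := .nd n11_464 n11_1488
def n11_976 : CT := .nd l976_ lz
def n11_2000 : CT := .nd l2000_ lz
def n10_976 : CT := .nd n11_976 n11_2000
def n9_464 : CT := .nd n10_464 n10_976
def n8_208 : CT := .nd n9_208 n9_464
def n7_80 : CT := .nd n8_80 n8_208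
def n6_16 : CT := .nd n7_16 n7_80
def n11_48 : CT := .nd l48_ l2096_
def n11_1072 : CT := .nd l1072_ lz
def n10_48 : CT := .nd n11_48 n11_1072
def n11_560 : CT := .nd l560_ l2608_
def n11_1584 : CT := .nd l1584_ lz
def n10_560 : CT := .nd n11_560 n11_1584
def n9_48 : CT := .nd n10_48 n10_560
def n11_304 : CT := .nd l304_ l2352_
def n11_1328 : CT := .nd l1328_ lz
def n10_304 : CT := .nd n11_304 n11_1328
def n11_816 : CT := .nd l816_ l2864_
def n11_1840 : CT := .nd l1840_ lz
def n10_816 : CT := .nd n11_816 n11_1840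
def n9_304 : CT := .nd n10_304 n10_816
def n8_48 : CT := .nd n9_48 n9_304
def n11_176 : CT := .nd l176_ l2224_
def n11_1200 : CT := .nd l1200_ lz
def n10_176 : CT := .nd n11_176 n11_1200
def n11_688 : CT := .nd l688_ l2736_
def n11_1712 : CT := .nd l1712_ lz
def n10_688 : CT := .nd n11_688 n11_1712
def n9_176 : CT := .nd n10_176 n10_688
def n11_432 : CT := .nd l432_ l2480_
def n11_1456 : CT := .nd l1456_ lz
def n10_432 : CT := .nd n11_432 n11_1456
def n11_944 : CT := .nd l944_ lz
def n11_1968 : CT := .nd l1968_ lz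
def n10_944 : CT := .nd n11_944 n11_1968
def n9_432 : CT := .nd n10_432 n10_944
def n8_176 : CT := .nd n9_176 n9_432
def n7_48 : CT := .nd n8_48 n8_176
def n11_112 : CT := .nd l112_ l2160_
def n11_1136 : CT := .nd l1136_ lz
def n10_112 : CT := .nd n11_112 n11_1136
def n11_624 : CT := .nd l624_ l2672_
def n11_1648 : CT := .nd l1648_ lz
def n10_624 : CT := .nd n11_624 n11_1648
def n9_112 : CT := .nd n10_112 n10_624
def n11_368 : CT := .nd l368_ l2416_
def n11_1392 : CT := .nd l1392_ lz
def n10_368 : CT := .nd n11_368 n11_1392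
def n11_880 : CT := .nd l880_ l2928_
def n11_1904 : CT := .nd l1904_ lz
def n10_880 : CT := .nd n11_880 n11_1904
def n9_368 : CT := .nd n10_368 n10_880
def n8_112 : CT := .nd n9_112 n9_368
def n11_240 : CT := .nd l240_ l2288_
def n11_1264 : CT := .nd l1264_ lz
def n10_240 : CT := .nd n11_240 n11_1264
def n11_752 : CT := .nd l752_ l2800_
def n11_1776 : CT := .nd l1776_ lz
def n10_752 : CT := .nd n11_752 n11_1776
def n9_240 : CT := .nd n10_240 n10_752
def n11_496 : CT := .nd l496_ l2544_
def n11_1520 : CT := .nd l1520_ lz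
def n10_496 : CT := .nd n11_496 n11_1520
def n11_1008 : CT := .nd l1008_ lz
def n11_2032 : CT := .nd l2032_ lz
def n10_1008 : CT := .nd n11_1008 n11_2032
def n9_496 : CT := .nd n10_496 n10_1008
def n8_240 : CT := .nd n9_240 n9_496
def n7_112 : CT := .nd n8_112 n8_240
def n6_48 : CT := .nd n7_48 n7_112
def n5_16 : CT := .nd n6_16 n6_48
def n4_0 : CT := .nd n5_0 n5_16
def n11_8 : CT := .nd l8_ l2056_
def n11_1032 : CT := .nd l1032_ lz
def n10_8 : CT := .nd n11_8 n11_1032
def n11_520 : CT := .nd l520_ l2568_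
def n11_1544 : CT := .nd l1544_ lz
def n10_520 : CT := .nd n11_520 n11_1544
def n9_8 : CT := .nd n10_8 n10_520
def n11_264 : CT := .nd l264_ l2312_
def n11_1288 : CT := .nd l1288_ lz
def n10_264 : CT := .nd n11_264 n11_1288
def n11_776 : CT := .nd l776_ l2824_
def n11_1800 : CT := .nd l1800_ lz
def n10_776 : CT := .nd n11_776 n11_1800
def n9_264 : CT := .nd n10_264 n10_776
def n8_8 : CT := .nd n9_8 n9_264
def n11_136 : CT := .nd l136_ l2184_
def n11_1160 : CT := .nd l1160_ lz
def n10_136 : CT := .nd n11_136 n11_1160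
def n11_648 : CT := .nd l648_ l2696_
def n11_1672 : CT := .nd l1672_ lz
def n10_648 : CT := .nd n11_648 n11_1672
def n9_136 : CT := .nd n10_136 n10_648
def n11_392 : CT := .nd l392_ l2440_
def n11_1416 : CT := .nd l1416_ lz
def n10_392 : CT := .nd n11_392 n11_1416
def n11_904 : CT := .nd l904_ l2952_
def n11_1928 : CT := .nd l1928_ lz
def n10_904 : CT := .nd n11_904 n11_1928
def n9_392 : CT := .nd n10_392 n10_904
def n8_136 : CT := .nd n9_136 n9_392
def n7_8 : CT := .nd n8_8 n8_136
def n11_72 : CT := .nd l72_ l2120_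
def n11_1096 : CT := .nd l1096_ lz
def n10_72 : CT := .nd n11_72 n11_1096
def n11_584 : CT := .nd l584_ l2632_
def n11_1608 : CT := .nd l1608_ lz
def n10_584 : CT := .nd n11_584 n11_1608
def n9_72 : CT := .nd n10_72 n10_584
def n11_328 : CT := .nd l328_ l2376_
def n11_1352 : CT := .nd l1352_ lz
def n10_328 : CT := .nd n11_328 n11_1352
def n11_840 : CT := .nd l840_ l2888_
def n11_1864 : CT := .nd l1864_ lz
def n10_840 : CT := .nd n11_840 n11_1864
def n9_328 : CT := .nd n10_328 n10_840
def n8_72 : CT := .nd n9_72 n9_328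
def n11_200 : CT := .nd l200_ l2248_
def n11_1224 : CT := .nd l1224_ lz
def n10_200 : CT := .nd n11_200 n11_1224
def n11_712 : CT := .nd l712_ l2760_
def n11_1736 : CT := .nd l1736_ lz
def n10_712 : CT := .nd n11_712 n11_1736
def n9_200 : CT := .nd n10_200 n10_712
def n11_456 : CT := .nd l456_ l2504_
def n11_1480 : CT := .nd l1480_ lz
def n10_456 : CT := .nd n11_456 n11_1480
def n11_968 : CT := .nd l968_ lz
def n11_1992 : CT := .nd l1992_ lz
def n10_968 : CT := .nd n11_968 n11_1992
def n9_456 : CT := .nd n10_456 n10_968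
def n8_200 : CT := .nd n9_200 n9_456
def n7_72 : CT := .nd n8_72 n8_200
def n6_8 : CT := .nd n7_8 n7_72
def n11_40 : CT := .nd l40_ l2088_
def n11_1064 : CT := .nd l1064_ lz
def n10_40 : CT := .nd n11_40 n11_1064
def n11_552 : CT := .nd l552_ l2600_
def n11_1576 : CT := .nd l1576_ lz
def n10_552 : CT := .nd n11_552 n11_1576
def n9_40 : CT := .nd n10_40 n10_552
def n11_296 : CT := .nd l296_ l2344_
def n11_1320 : CT := .nd l1320_ lz
def n10_296 : CT := .nd n11_296 n11_1320
def n11_808 : CT := .nd l808_ l2856_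
def n11_1832 : CT := .nd l1832_ lz
def n10_808 : CT := .nd n11_808 n11_1832
def n9_296 : CT := .nd n10_296 n10_808
def n8_40 : CT := .nd n9_40 n9_296
def n11_168 : CT := .nd l168_ l2216_
def n11_1192 : CT := .nd l1192_ lz
def n10_168 : CT := .nd n11_168 n11_1192
def n11_680 : CT := .nd l680_ l2728_
def n11_1704 : CT := .nd l1704_ lz
def n10_680 : CT := .nd n11_680 n11_1704
def n9_168 : CT := .nd n10_168 n10_680
def n11_424 : CT := .nd l424_ l2472_
def n11_1448 : CT := .nd l1448_ lz
def n10_424 : CT := .nd n11_424 n11_1448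
def n11_936 : CT := .nd l936_ l2984_
def n11_1960 : CT := .nd l1960_ lz
def n10_936 : CT := .nd n11_936 n11_1960
def n9_424 : CT := .nd n10_424 n10_936
def n8_168 : CT := .nd n9_168 n9_424
def n7_40 : CT := .nd n8_40 n8_168
def n11_104 : CT := .nd l104_ l2152_
def n11_1128 : CT := .nd l1128_ lz
def n10_104 : CT := .nd n11_104 n11_1128
def n11_616 : CT := .nd l616_ l2664_
def n11_1640 : CT := .nd l1640_ lz
def n10_616 : CT := .nd n11_616 n11_1640
def n9_104 : CT := .nd n10_104 n10_616
def n11_360 : CT := .nd l360_ l2408_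
def n11_1384 : CT := .nd l1384_ lz
def n10_360 : CT := .nd n11_360 n11_1384
def n11_872 : CT := .nd l872_ l2920_
def n11_1896 : CT := .nd l1896_ lz
def n10_872 : CT := .nd n11_872 n11_1896
def n9_360 : CT := .nd n10_360 n10_872
def n8_104 : CT := .nd n9_104 n9_360
def n11_232 : CT := .nd l232_ l2280_
def n11_1256 : CT := .nd l1256_ lz
def n10_232 : CT := .nd n11_232 n11_1256
def n11_744 : CT := .nd l744_ l2792_
def n11_1768 : CT := .nd l1768_ lz
def n10_744 : CT := .nd n11_744 n11_1768
def n9_232 : CT := .nd n10_232 n10_744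
def n11_488 : CT := .nd l488_ l2536_
def n11_1512 : CT := .nd l1512_ lz
def n10_488 : CT := .nd n11_488 n11_1512
def n11_1000 : CT := .nd l1000_ lz
def n11_2024 : CT := .nd l2024_ lz
def n10_1000 : CT := .nd n11_1000 n11_2024
def n9_488 : CT := .nd n10_488 n10_1000
def n8_232 : CT := .nd n9_232 n9_488
def n7_104 : CT := .nd n8_104 n8_232
def n6_40 : CT := .nd n7_40 n7_104
def n5_8 : CT := .nd n6_8 n6_40
def n11_24 : CT := .nd l24_ l2072_
def n11_1048 : CT := .nd l1048_ lz
def n10_24 : CT := .nd n11_24 n11_1048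
def n11_536 : CT := .nd l536_ l2584_
def n11_1560 : CT := .nd l1560_ lz
def n10_536 : CT := .nd n11_536 n11_1560
def n9_24 : CT := .nd n10_24 n10_536
def n11_280 : CT := .nd l280_ l2328_
def n11_1304 : CT := .nd l1304_ lz
def n10_280 : CT := .nd n11_280 n11_1304
def n11_792 : CT := .nd l792_ l2840_
def n11_1816 : CT := .nd l1816_ lz
def n10_792 : CT := .nd n11_792 n11_1816
def n9_280 : CT := .nd n10_280 n10_792
def n8_24 : CT := .nd n9_24 n9_280
def n11_152 : CT := .nd l152_ l2200_
def n11_1176 : CT := .nd l1176_ lz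
def n10_152 : CT := .nd n11_152 n11_1176
def n11_664 : CT := .nd l664_ l2712_
def n11_1688 : CT := .nd l1688_ lz
def n10_664 : CT := .nd n11_664 n11_1688
def n9_152 : CT := .nd n10_152 n10_664
def n11_408 : CT := .nd l408_ l2456_
def n11_1432 : CT := .nd l1432_ lz
def n10_408 : CT := .nd n11_408 n11_1432
def n11_920 : CT := .nd l920_ l2968_
def n11_1944 : CT := .nd l1944_ lz
def n10_920 : CT := .nd n11_920 n11_1944
def n9_408 : CT := .nd n10_408 n10_920
def n8_152 : CT := .nd n9_152 n9_408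
def n7_24 : CT := .nd n8_24 n8_152
def n11_88 : CT := .nd l88_ l2136_
def n11_1112 : CT := .nd l1112_ lz
def n10_88 : CT := .nd n11_88 n11_1112
def n11_600 : CT := .nd l600_ l2648_
def n11_1624 : CT := .nd l1624_ lz
def n10_600 : CT := .nd n11_600 n11_1624
def n9_88 : CT := .nd n10_88 n10_600
def n11_344 : CT := .nd l344_ l2392_
def n11_1368 : CT := .nd l1368_ lz
def n10_344 : CT := .nd n11_344 n11_1368
def n11_856 : CT := .nd l856_ l2904_
def n11_1880 : CT := .nd l1880_ lz
def n10_856 : CT := .nd n11_856 n11_1880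
def n9_344 : CT := .nd n10_344 n10_856
def n8_88 : CT := .nd n9_88 n9_344
def n11_216 : CT := .nd l216_ l2264_
def n11_1240 : CT := .nd l1240_ lz
def n10_216 : CT := .nd n11_216 n11_1240
def n11_728 : CT := .nd l728_ l2776_
def n11_1752 : CT := .nd l1752_ lz
def n10_728 : CT := .nd n11_728 n11_1752
def n9_216 : CT := .nd n10_216 n10_728
def n11_472 : CT := .nd l472_ l2520_
def n11_1496 : CT := .nd l1496_ lz
def n10_472 : CT := .nd n11_472 n11_1496
def n11_984 : CT := .nd l984_ lz
def n11_2008 : CT := .nd l2008_ lz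
def n10_984 : CT := .nd n11_984 n11_2008
def n9_472 : CT := .nd n10_472 n10_984
def n8_216 : CT := .nd n9_216 n9_472
def n7_88 : CT := .nd n8_88 n8_216
def n6_24 : CT := .nd n7_24 n7_88
def n11_56 : CT := .nd l56_ l2104_
def n11_1080 : CT := .nd l1080_ lz
def n10_56 : CT := .nd n11_56 n11_1080
def n11_568 : CT := .nd l568_ l2616_
def n11_1592 : CT := .nd l1592_ lz
def n10_568 : CT := .nd n11_568 n11_1592
def n9_56 : CT := .nd n10_56 n10_568
def n11_312 : CT := .nd l312_ l2360_
def n11_1336 : CT := .nd l1336_ lz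
def n10_312 : CT := .nd n11_312 n11_1336
def n11_824 : CT := .nd l824_ l2872_
def n11_1848 : CT := .nd l1848_ lz
def n10_824 : CT := .nd n11_824 n11_1848
def n9_312 : CT := .nd n10_312 n10_824
def n8_56 : CT := .nd n9_56 n9_312
def n11_184 : CT := .nd l184_ l2232_
def n11_1208 : CT := .nd l1208_ lz
def n10_184 : CT := .nd n11_184 n11_1208
def n11_696 : CT := .nd l696_ l2744_
def n11_1720 : CT := .nd l1720_ lz
def n10_696 : CT := .nd n11_696 n11_1720
def n9_184 : CT := .nd n10_184 n10_696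
def n11_440 : CT := .nd l440_ l2488_
def n11_1464 : CT := .nd l1464_ lz
def n10_440 : CT := .nd n11_440 n11_1464
def n11_952 : CT := .nd l952_ lz
def n11_1976 : CT := .nd l1976_ lz
def n10_952 : CT := .nd n11_952 n11_1976
def n9_440 : CT := .nd n10_440 n10_952
def n8_184 : CT := .nd n9_184 n9_440
def n7_56 : CT := .nd n8_56 n8_184
def n11_120 : CT := .nd l120_ l2168_
def n11_1144 : CT := .nd l1144_ lz
def n10_120 : CT := .nd n11_120 n11_1144
def n11_632 : CT := .nd l632_ l2680_
def n11_1656 : CT := .nd l1656_ lz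
def n10_632 : CT := .nd n11_632 n11_1656
def n9_120 : CT := .nd n10_120 n10_632
def n11_376 : CT := .nd l376_ l2424_
def n11_1400 : CT := .nd l1400_ lz
def n10_376 : CT := .nd n11_376 n11_1400
def n11_888 : CT := .nd l888_ l2936_
def n11_1912 : CT := .nd l1912_ lz
def n10_888 : CT := .nd n11_888 n11_1912
def n9_376 : CT := .nd n10_376 n10_888
def n8_120 : CT := .nd n9_120 n9_376
def n11_248 : CT := .nd l248_ l2296_
def n11_1272 : CT := .nd l1272_ lz
def n10_248 : CT := .nd n11_248 n11_1272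
def n11_760 : CT := .nd l760_ l2808_
def n11_1784 : CT := .nd l1784_ lz
def n10_760 : CT := .nd n11_760 n11_1784
def n9_248 : CT := .nd n10_248 n10_760
def n11_504 : CT := .nd l504_ l2552_
def n11_1528 : CT := .nd l1528_ lz
def n10_504 : CT := .nd n11_504 n11_1528
def n11_1016 : CT := .nd l1016_ lz
def n11_2040 : CT := .nd l2040_ lz
def n10_1016 : CT := .nd n11_1016 n11_2040
def n9_504 : CT := .nd n10_504 n10_1016
def n8_248 : CT := .nd n9_248 n9_504
def n7_120 : CT := .nd n8_120 n8_248
def n6_56 : CT := .nd n7_56 n7_120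
def n5_24 : CT := .nd n6_24 n6_56
def n4_8 : CT := .nd n5_8 n5_24
def n3_0 : CT := .nd n4_0 n4_8
def n11_4 : CT := .nd l4_ l2052_
def n11_1028 : CT := .nd l1028_ lz
def n10_4 : CT := .nd n11_4 n11_1028
def n11_516 : CT := .nd l516_ l2564_
def n11_1540 : CT := .nd l1540_ lz
def n10_516 : CT := .nd n11_516 n11_1540
def n9_4 : CT := .nd n10_4 n10_516
def n11_260 : CT := .nd l260_ l2308_
def n11_1284 : CT := .nd l1284_ lz
def n10_260 : CT := .nd n11_260 n11_1284
def n11_772 : CT := .nd l772_ l2820_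
def n11_1796 : CT := .nd l1796_ lz
def n10_772 : CT := .nd n11_772 n11_1796
def n9_260 : CT := .nd n10_260 n10_772
def n8_4 : CT := .nd n9_4 n9_260
def n11_132 : CT := .nd l132_ l2180_
def n11_1156 : CT := .nd l1156_ lz
def n10_132 : CT := .nd n11_132 n11_1156
def n11_644 : CT := .nd l644_ l2692_
def n11_1668 : CT := .nd l1668_ lz
def n10_644 : CT := .nd n11_644 n11_1668
def n9_132 : CT := .nd n10_132 n10_644
def n11_388 : CT := .nd l388_ l2436_
def n11_1412 : CT := .nd l1412_ lz
def n10_388 : CT := .nd n11_388 n11_1412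
def n11_900 : CT := .nd l900_ l2948_
def n11_1924 : CT := .nd l1924_ lz
def n10_900 : CT := .nd n11_900 n11_1924
def n9_388 : CT := .nd n10_388 n10_900
def n8_132 : CT := .nd n9_132 n9_388
def n7_4 : CT := .nd n8_4 n8_132
def n11_68 : CT := .nd l68_ l2116_
def n11_1092 : CT := .nd l1092_ lz
def n10_68 : CT := .nd n11_68 n11_1092
def n11_580 : CT := .nd l580_ l2628_
def n11_1604 : CT := .nd l1604_ lz
def n10_580 : CT := .nd n11_580 n11_1604
def n9_68 : CT := .nd n10_68 n10_580
def n11_324 : CT := .nd l324_ l2372_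
def n11_1348 : CT := .nd l1348_ lz
def n10_324 : CT := .nd n11_324 n11_1348
def n11_836 : CT := .nd l836_ l2884_
def n11_1860 : CT := .nd l1860_ lz
def n10_836 : CT := .nd n11_836 n11_1860
def n9_324 : CT := .nd n10_324 n10_836
def n8_68 : CT := .nd n9_68 n9_324
def n11_196 : CT := .nd l196_ l2244_
def n11_1220 : CT := .nd l1220_ lz
def n10_196 : CT := .nd n11_196 n11_1220
def n11_708 : CT := .nd l708_ l2756_
def n11_1732 : CT := .nd l1732_ lz
def n10_708 : CT := .nd n11_708 n11_1732
def n9_196 : CT := .nd n10_196 n10_708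
def n11_452 : CT := .nd l452_ l2500_
def n11_1476 : CT := .nd l1476_ lz
def n10_452 : CT := .nd n11_452 n11_1476
def n11_964 : CT := .nd l964_ lz
def n11_1988 : CT := .nd l1988_ lz
def n10_964 : CT := .nd n11_964 n11_1988
def n9_452 : CT := .nd n10_452 n10_964
def n8_196 : CT := .nd n9_196 n9_452
def n7_68 : CT := .nd n8_68 n8_196
def n6_4 : CT := .nd n7_4 n7_68
def n11_36 : CT := .nd l36_ l2084_
def n11_1060 : CT := .nd l1060_ lz
def n10_36 : CT := .nd n11_36 n11_1060
def n11_548 : CT := .nd l548_ l2596_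
def n11_1572 : CT := .nd l1572_ lz
def n10_548 : CT := .nd n11_548 n11_1572
def n9_36 : CT := .nd n10_36 n10_548
def n11_292 : CT := .nd l292_ l2340_
def n11_1316 : CT := .nd l1316_ lz
def n10_292 : CT := .nd n11_292 n11_1316
def n11_804 : CT := .nd l804_ l2852_
def n11_1828 : CT := .nd l1828_ lz
def n10_804 : CT := .nd n11_804 n11_1828
def n9_292 : CT := .nd n10_292 n10_804
def n8_36 : CT := .nd n9_36 n9_292
def n11_164 : CT := .nd l164_ l2212_
def n11_1188 : CT := .nd l1188_ lz
def n10_164 : CT := .nd n11_164 n11_1188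
def n11_676 : CT := .nd l676_ l2724_
def n11_1700 : CT := .nd l1700_ lz
def n10_676 : CT := .nd n11_676 n11_1700
def n9_164 : CT := .nd n10_164 n10_676
def n11_420 : CT := .nd l420_ l2468_
def n11_1444 : CT := .nd l1444_ lz
def n10_420 : CT := .nd n11_420 n11_1444
def n11_932 : CT := .nd l932_ l2980_
def n11_1956 : CT := .nd l1956_ lz
def n10_932 : CT := .nd n11_932 n11_1956
def n9_420 : CT := .nd n10_420 n10_932
def n8_164 : CT := .nd n9_164 n9_420
def n7_36 : CT := .nd n8_36 n8_164
def n11_100 : CT := .nd l100_ l2148_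
def n11_1124 : CT := .nd l1124_ lz
def n10_100 : CT := .nd n11_100 n11_1124
def n11_612 : CT := .nd l612_ l2660_
def n11_1636 : CT := .nd l1636_ lz
def n10_612 : CT := .nd n11_612 n11_1636
def n9_100 : CT := .nd n10_100 n10_612
def n11_356 : CT := .nd l356_ l2404_
def n11_1380 : CT := .nd l1380_ lz
def n10_356 : CT := .nd n11_356 n11_1380
def n11_868 : CT := .nd l868_ l2916_
def n11_1892 : CT := .nd l1892_ lz
def n10_868 : CT := .nd n11_868 n11_1892
def n9_356 : CT := .nd n10_356 n10_868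
def n8_100 : CT := .nd n9_100 n9_356
def n11_228 : CT := .nd l228_ l2276_
def n11_1252 : CT := .nd l1252_ lz
def n10_228 : CT := .nd n11_228 n11_1252
def n11_740 : CT := .nd l740_ l2788_
def n11_1764 : CT := .nd l1764_ lz
def n10_740 : CT := .nd n11_740 n11_1764
def n9_228 : CT := .nd n10_228 n10_740
def n11_484 : CT := .nd l484_ l2532_
def n11_1508 : CT := .nd l1508_ lz
def n10_484 : CT := .nd n11_484 n11_1508
def n11_996 : CT := .nd l996_ lz
def n11_2020 : CT := .nd l2020_ lz
def n10_996 : CT := .nd n11_996 n11_2020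
def n9_484 : CT := .nd n10_484 n10_996
def n8_228 : CT := .nd n9_228 n9_484
def n7_100 : CT := .nd n8_100 n8_228
def n6_36 : CT := .nd n7_36 n7_100
def n5_4 : CT := .nd n6_4 n6_36
def n11_20 : CT := .nd l20_ l2068_
def n11_1044 : CT := .nd l1044_ lz
def n10_20 : CT := .nd n11_20 n11_1044
def n11_532 : CT := .nd l532_ l2580_
def n11_1556 : CT := .nd l1556_ lz
def n10_532 : CT := .nd n11_532 n11_1556
def n9_20 : CT := .nd n10_20 n10_532
def n11_276 : CT := .nd l276_ l2324_
def n11_1300 : CT := .nd l1300_ lz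
def n10_276 : CT := .nd n11_276 n11_1300
def n11_788 : CT := .nd l788_ l2836_
def n11_1812 : CT := .nd l1812_ lz
def n10_788 : CT := .nd n11_788 n11_1812
def n9_276 : CT := .nd n10_276 n10_788
def n8_20 : CT := .nd n9_20 n9_276
def n11_148 : CT := .nd l148_ l2196_
def n11_1172 : CT := .nd l1172_ lz
def n10_148 : CT := .nd n11_148 n11_1172
def n11_660 : CT := .nd l660_ l2708_
def n11_1684 : CT := .nd l1684_ lz
def n10_660 : CT := .nd n11_660 n11_1684
def n9_148 : CT := .nd n10_148 n10_660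
def n11_404 : CT := .nd l404_ l2452_
def n11_1428 : CT := .nd l1428_ lz
def n10_404 : CT := .nd n11_404 n11_1428
def n11_916 : CT := .nd l916_ l2964_
def n11_1940 : CT := .nd l1940_ lz
def n10_916 : CT := .nd n11_916 n11_1940
def n9_404 : CT := .nd n10_404 n10_916
def n8_148 : CT := .nd n9_148 n9_404
def n7_20 : CT := .nd n8_20 n8_148
def n11_84 : CT := .nd l84_ l2132_
def n11_1108 : CT := .nd l1108_ lz
def n10_84 : CT := .nd n11_84 n11_1108
def n11_596 : CT := .nd l596_ l2644_
def n11_1620 : CT := .nd l1620_ lz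
def n10_596 : CT := .nd n11_596 n11_1620
def n9_84 : CT := .nd n10_84 n10_596
def n11_340 : CT := .nd l340_ l2388_
def n11_1364 : CT := .nd l1364_ lz
def n10_340 : CT := .nd n11_340 n11_1364
def n11_852 : CT := .nd l852_ l2900_
def n11_1876 : CT := .nd l1876_ lz
def n10_852 : CT := .nd n11_852 n11_1876
def n9_340 : CT := .nd n10_340 n10_852
def n8_84 : CT := .nd n9_84 n9_340
def n11_212 : CT := .nd l212_ l2260_
def n11_1236 : CT := .nd l1236_ lz
def n10_212 : CT := .nd n11_212 n11_1236
def n11_724 : CT := .nd l724_ l2772_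
def n11_1748 : CT := .nd l1748_ lz
def n10_724 : CT := .nd n11_724 n11_1748
def n9_212 : CT := .nd n10_212 n10_724
def n11_468 : CT := .nd l468_ l2516_
def n11_1492 : CT := .nd l1492_ lz
def n10_468 : CT := .nd n11_468 n11_1492
def n11_980 : CT := .nd l980_ lz
def n11_2004 : CT := .nd l2004_ lz
def n10_980 : CT := .nd n11_980 n11_2004
def n9_468 : CT := .nd n10_468 n10_980
def n8_212 : CT := .nd n9_212 n9_468
def n7_84 : CT := .nd n8_84 n8_212
def n6_20 : CT := .nd n7_20 n7_84
def n11_52 : CT := .nd l52_ l2100_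
def n11_1076 : CT := .nd l1076_ lz
def n10_52 : CT := .nd n11_52 n11_1076
def n11_564 : CT := .nd l564_ l2612_
def n11_1588 : CT := .nd l1588_ lz
def n10_564 : CT := .nd n11_564 n11_1588
def n9_52 : CT := .nd n10_52 n10_564
def n11_308 : CT := .nd l308_ l2356_
def n11_1332 : CT := .nd l1332_ lz
def n10_308 : CT := .nd n11_308 n11_1332
def n11_820 : CT := .nd l820_ l2868_
def n11_1844 : CT := .nd l1844_ lz
def n10_820 : CT := .nd n11_820 n11_1844
def n9_308 : CT := .nd n10_308 n10_820
def n8_52 : CT := .nd n9_52 n9_308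
def n11_180 : CT := .nd l180_ l2228_
def n11_1204 : CT := .nd l1204_ lz
def n10_180 : CT := .nd n11_180 n11_1204
def n11_692 : CT := .nd l692_ l2740_
def n11_1716 : CT := .nd l1716_ lz
def n10_692 : CT := .nd n11_692 n11_1716
def n9_180 : CT := .nd n10_180 n10_692
def n11_436 : CT := .nd l436_ l2484_
def n11_1460 : CT := .nd l1460_ lz
def n10_436 : CT := .nd n11_436 n11_1460
def n11_948 : CT := .nd l948_ lz
def n11_1972 : CT := .nd l1972_ lz
def n10_948 : CT := .nd n11_948 n11_1972
def n9_436 : CT := .nd n10_436 n10_948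
def n8_180 : CT := .nd n9_180 n9_436
def n7_52 : CT := .nd n8_52 n8_180
def n11_116 : CT := .nd l116_ l2164_
def n11_1140 : CT := .nd l1140_ lz
def n10_116 : CT := .nd n11_116 n11_1140
def n11_628 : CT := .nd l628_ l2676_
def n11_1652 : CT := .nd l1652_ lz
def n10_628 : CT := .nd n11_628 n11_1652
def n9_116 : CT := .nd n10_116 n10_628
def n11_372 : CT := .nd l372_ l2420_
def n11_1396 : CT := .nd l1396_ lz
def n10_372 : CT := .nd n11_372 n11_1396
def n11_884 : CT := .nd l884_ l2932_
def n11_1908 : CT := .nd l1908_ lz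
def n10_884 : CT := .nd n11_884 n11_1908
def n9_372 : CT := .nd n10_372 n10_884
def n8_116 : CT := .nd n9_116 n9_372
def n11_244 : CT := .nd l244_ l2292_
def n11_1268 : CT := .nd l1268_ lz
def n10_244 : CT := .nd n11_244 n11_1268
def n11_756 : CT := .nd l756_ l2804_
def n11_1780 : CT := .nd l1780_ lz
def n10_756 : CT := .nd n11_756 n11_1780
def n9_244 : CT := .nd n10_244 n10_756
def n11_500 : CT := .nd l500_ l2548_
def n11_1524 : CT := .nd l1524_ lz
def n10_500 : CT := .nd n11_500 n11_1524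
def n11_1012 : CT := .nd l1012_ lz
def n11_2036 : CT := .nd l2036_ lz
def n10_1012 : CT := .nd n11_1012 n11_2036
def n9_500 : CT := .nd n10_500 n10_1012
def n8_244 : CT := .nd n9_244 n9_500
def n7_116 : CT := .nd n8_116 n8_244
def n6_52 : CT := .nd n7_52 n7_116
def n5_20 : CT := .nd n6_20 n6_52
def n4_4 : CT := .nd n5_4 n5_20
def n11_12 : CT := .nd l12_ l2060_
def n11_1036 : CT := .nd l1036_ lz
def n10_12 : CT := .nd n11_12 n11_1036
def n11_524 : CT := .nd l524_ l2572_
def n11_1548 : CT := .nd l1548_ lz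
def n10_524 : CT := .nd n11_524 n11_1548
def n9_12 : CT := .nd n10_12 n10_524
def n11_268 : CT := .nd l268_ l2316_
def n11_1292 : CT := .nd l1292_ lz
def n10_268 : CT := .nd n11_268 n11_1292
def n11_780 : CT := .nd l780_ l2828_
def n11_1804 : CT := .nd l1804_ lz
def n10_780 : CT := .nd n11_780 n11_1804
def n9_268 : CT := .nd n10_268 n10_780
def n8_12 : CT := .nd n9_12 n9_268
def n11_140 : CT := .nd l140_ l2188_
def n11_1164 : CT := .nd l1164_ lz
def n10_140 : CT := .nd n11_140 n11_1164
def n11_652 : CT := .nd l652_ l2700_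
def n11_1676 : CT := .nd l1676_ lz
def n10_652 : CT := .nd n11_652 n11_1676
def n9_140 : CT := .nd n10_140 n10_652
def n11_396 : CT := .nd l396_ l2444_
def n11_1420 : CT := .nd l1420_ lz
def n10_396 : CT := .nd n11_396 n11_1420
def n11_908 : CT := .nd l908_ l2956_
def n11_1932 : CT := .nd l1932_ lz
def n10_908 : CT := .nd n11_908 n11_1932
def n9_396 : CT := .nd n10_396 n10_908
def n8_140 : CT := .nd n9_140 n9_396
def n7_12 : CT := .nd n8_12 n8_140
def n11_76 : CT := .nd l76_ l2124_
def n11_1100 : CT := .nd l1100_ lz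
def n10_76 : CT := .nd n11_76 n11_1100
def n11_588 : CT := .nd l588_ l2636_
def n11_1612 : CT := .nd l1612_ lz
def n10_588 : CT := .nd n11_588 n11_1612
def n9_76 : CT := .nd n10_76 n10_588
def n11_332 : CT := .nd l332_ l2380_
def n11_1356 : CT := .nd l1356_ lz
def n10_332 : CT := .nd n11_332 n11_1356
def n11_844 : CT := .nd l844_ l2892_
def n11_1868 : CT := .nd l1868_ lz
def n10_844 : CT := .nd n11_844 n11_1868
def n9_332 : CT := .nd n10_332 n10_844
def n8_76 : CT := .nd n9_76 n9_332
def n11_204 : CT := .nd l204_ l2252_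
def n11_1228 : CT := .nd l1228_ lz
def n10_204 : CT := .nd n11_204 n11_1228
def n11_716 : CT := .nd l716_ l2764_
def n11_1740 : CT := .nd l1740_ lz
def n10_716 : CT := .nd n11_716 n11_1740
def n9_204 : CT := .nd n10_204 n10_716
def n11_460 : CT := .nd l460_ l2508_
def n11_1484 : CT := .nd l1484_ lz
def n10_460 : CT := .nd n11_460 n11_1484
def n11_972 : CT := .nd l972_ lz
def n11_1996 : CT := .nd l1996_ lz
def n10_972 : CT := .nd n11_972 n11_1996
def n9_460 : CT := .nd n10_460 n10_972
def n8_204 : CT := .nd n9_204 n9_460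
def n7_76 : CT := .nd n8_76 n8_204
def n6_12 : CT := .nd n7_12 n7_76
def n11_44 : CT := .nd l44_ l2092_
def n11_1068 : CT := .nd l1068_ lz
def n10_44 : CT := .nd n11_44 n11_1068
def n11_556 : CT := .nd l556_ l2604_
def n11_1580 : CT := .nd l1580_ lz
def n10_556 : CT := .nd n11_556 n11_1580
def n9_44 : CT := .nd n10_44 n10_556
def n11_300 : CT := .nd l300_ l2348_
def n11_1324 : CT := .nd l1324_ lz
def n10_300 : CT := .nd n11_300 n11_1324
def n11_812 : CT := .nd l812_ l2860_
def n11_1836 : CT := .nd l1836_ lz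
def n10_812 : CT := .nd n11_812 n11_1836
def n9_300 : CT := .nd n10_300 n10_812
def n8_44 : CT := .nd n9_44 n9_300
def n11_172 : CT := .nd l172_ l2220_
def n11_1196 : CT := .nd l1196_ lz
def n10_172 : CT := .nd n11_172 n11_1196
def n11_684 : CT := .nd l684_ l2732_
def n11_1708 : CT := .nd l1708_ lz
def n10_684 : CT := .nd n11_684 n11_1708
def n9_172 : CT := .nd n10_172 n10_684
def n11_428 : CT := .nd l428_ l2476_
def n11_1452 : CT := .nd l1452_ lz
def n10_428 : CT := .nd n11_428 n11_1452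
def n11_940 : CT := .nd l940_ l2988_
def n11_1964 : CT := .nd l1964_ lz
def n10_940 : CT := .nd n11_940 n11_1964
def n9_428 : CT := .nd n10_428 n10_940
def n8_172 : CT := .nd n9_172 n9_428
def n7_44 : CT := .nd n8_44 n8_172
def n11_108 : CT := .nd l108_ l2156_
def n11_1132 : CT := .nd l1132_ lz
def n10_108 : CT := .nd n11_108 n11_1132
def n11_620 : CT := .nd l620_ l2668_
def n11_1644 : CT := .nd l1644_ lz
def n10_620 : CT := .nd n11_620 n11_1644
def n9_108 : CT := .nd n10_108 n10_620
def n11_364 : CT := .nd l364_ l2412_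
def n11_1388 : CT := .nd l1388_ lz
def n10_364 : CT := .nd n11_364 n11_1388
def n11_876 : CT := .nd l876_ l2924_
def n11_1900 : CT := .nd l1900_ lz
def n10_876 : CT := .nd n11_876 n11_1900
def n9_364 : CT := .nd n10_364 n10_876
def n8_108 : CT := .nd n9_108 n9_364
def n11_236 : CT := .nd l236_ l2284_
def n11_1260 : CT := .nd l1260_ lz
def n10_236 : CT := .nd n11_236 n11_1260
def n11_748 : CT := .nd l748_ l2796_
def n11_1772 : CT := .nd l1772_ lz
def n10_748 : CT := .nd n11_748 n11_1772
def n9_236 : CT := .nd n10_236 n10_748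
def n11_492 : CT := .nd l492_ l2540_
def n11_1516 : CT := .nd l1516_ lz
def n10_492 : CT := .nd n11_492 n11_1516
def n11_1004 : CT := .nd l1004_ lz
def n11_2028 : CT := .nd l2028_ lz
def n10_1004 : CT := .nd n11_1004 n11_2028
def n9_492 : CT := .nd n10_492 n10_1004
def n8_236 : CT := .nd n9_236 n9_492
def n7_108 : CT := .nd n8_108 n8_236
def n6_44 : CT := .nd n7_44 n7_108
def n5_12 : CT := .nd n6_12 n6_44
def n11_28 : CT := .nd l28_ l2076_
def n11_1052 : CT := .nd l1052_ lz
def n10_28 : CT := .nd n11_28 n11_1052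
def n11_540 : CT := .nd l540_ l2588_
def n11_1564 : CT := .nd l1564_ lz
def n10_540 : CT := .nd n11_540 n11_1564
def n9_28 : CT := .nd n10_28 n10_540
def n11_284 : CT := .nd l284_ l2332_
def n11_1308 : CT := .nd l1308_ lz
def n10_284 : CT := .nd n11_284 n11_1308
def n11_796 : CT := .nd l796_ l2844_
def n11_1820 : CT := .nd l1820_ lz
def n10_796 : CT := .nd n11_796 n11_1820
def n9_284 : CT := .nd n10_284 n10_796
def n8_28 : CT := .nd n9_28 n9_284
def n11_156 : CT := .nd l156_ l2204_
def n11_1180 : CT := .nd l1180_ lz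
def n10_156 : CT := .nd n11_156 n11_1180
def n11_668 : CT := .nd l668_ l2716_
def n11_1692 : CT := .nd l1692_ lz
def n10_668 : CT := .nd n11_668 n11_1692
def n9_156 : CT := .nd n10_156 n10_668
def n11_412 : CT := .nd l412_ l2460_
def n11_1436 : CT := .nd l1436_ lz
def n10_412 : CT := .nd n11_412 n11_1436
def n11_924 : CT := .nd l924_ l2972_
def n11_1948 : CT := .nd l1948_ lz
def n10_924 : CT := .nd n11_924 n11_1948
def n9_412 : CT := .nd n10_412 n10_924
def n8_156 : CT := .nd n9_156 n9_412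
def n7_28 : CT := .nd n8_28 n8_156
def n11_92 : CT := .nd l92_ l2140_
def n11_1116 : CT := .nd l1116_ lz
def n10_92 : CT := .nd n11_92 n11_1116
def n11_604 : CT := .nd l604_ l2652_
def n11_1628 : CT := .nd l1628_ lz
def n10_604 : CT := .nd n11_604 n11_1628
def n9_92 : CT := .nd n10_92 n10_604
def n11_348 : CT := .nd l348_ l2396_
def n11_1372 : CT := .nd l1372_ lz
def n10_348 : CT := .nd n11_348 n11_1372
def n11_860 : CT := .nd l860_ l2908_
def n11_1884 : CT := .nd l1884_ lz
def n10_860 : CT := .nd n11_860 n11_1884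
def n9_348 : CT := .nd n10_348 n10_860
def n8_92 : CT := .nd n9_92 n9_348
def n11_220 : CT := .nd l220_ l2268_
def n11_1244 : CT := .nd l1244_ lz
def n10_220 : CT := .nd n11_220 n11_1244
def n11_732 : CT := .nd l732_ l2780_
def n11_1756 : CT := .nd l1756_ lz
def n10_732 : CT := .nd n11_732 n11_1756
def n9_220 : CT := .nd n10_220 n10_732
def n11_476 : CT := .nd l476_ l2524_
def n11_1500 : CT := .nd l1500_ lz
def n10_476 : CT := .nd n11_476 n11_1500
def n11_988 : CT := .nd l988_ lz
def n11_2012 : CT := .nd l2012_ lz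
def n10_988 : CT := .nd n11_988 n11_2012
def n9_476 : CT := .nd n10_476 n10_988
def n8_220 : CT := .nd n9_220 n9_476
def n7_92 : CT := .nd n8_92 n8_220
def n6_28 : CT := .nd n7_28 n7_92
def n11_60 : CT := .nd l60_ l2108_
def n11_1084 : CT := .nd l1084_ lz
def n10_60 : CT := .nd n11_60 n11_1084
def n11_572 : CT := .nd l572_ l2620_
def n11_1596 : CT := .nd l1596_ lz
def n10_572 : CT := .nd n11_572 n11_1596
def n9_60 : CT := .nd n10_60 n10_572
def n11_316 : CT := .nd l316_ l2364_
def n11_1340 : CT := .nd l1340_ lz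
def n10_316 : CT := .nd n11_316 n11_1340
def n11_828 : CT := .nd l828_ l2876_
def n11_1852 : CT := .nd l1852_ lz
def n10_828 : CT := .nd n11_828 n11_1852
def n9_316 : CT := .nd n10_316 n10_828
def n8_60 : CT := .nd n9_60 n9_316
def n11_188 : CT := .nd l188_ l2236_
def n11_1212 : CT := .nd l1212_ lz
def n10_188 : CT := .nd n11_188 n11_1212
def n11_700 : CT := .nd l700_ l2748_
def n11_1724 : CT := .nd l1724_ lz
def n10_700 : CT := .nd n11_700 n11_1724
def n9_188 : CT := .nd n10_188 n10_700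
def n11_444 : CT := .nd l444_ l2492_
def n11_1468 : CT := .nd l1468_ lz
def n10_444 : CT := .nd n11_444 n11_1468
def n11_956 : CT := .nd l956_ lz
def n11_1980 : CT := .nd l1980_ lz
def n10_956 : CT := .nd n11_956 n11_1980
def n9_444 : CT := .nd n10_444 n10_956
def n8_188 : CT := .nd n9_188 n9_444
def n7_60 : CT := .nd n8_60 n8_188
def n11_124 : CT := .nd l124_ l2172_
def n11_1148 : CT := .nd l1148_ lz
def n10_124 : CT := .nd n11_124 n11_1148
def n11_636 : CT := .nd l636_ l2684_
def n11_1660 : CT := .nd l1660_ lz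
def n10_636 : CT := .nd n11_636 n11_1660
def n9_124 : CT := .nd n10_124 n10_636
def n11_380 : CT := .nd l380_ l2428_
def n11_1404 : CT := .nd l1404_ lz
def n10_380 : CT := .nd n11_380 n11_1404
def n11_892 : CT := .nd l892_ l2940_
def n11_1916 : CT := .nd l1916_ lz
def n10_892 : CT := .nd n11_892 n11_1916
def n9_380 : CT := .nd n10_380 n10_892
def n8_124 : CT := .nd n9_124 n9_380
def n11_252 : CT := .nd l252_ l2300_
def n11_1276 : CT := .nd l1276_ lz
def n10_252 : CT := .nd n11_252 n11_1276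
def n11_764 : CT := .nd l764_ l2812_
def n11_1788 : CT := .nd l1788_ lz
def n10_764 : CT := .nd n11_764 n11_1788
def n9_252 : CT := .nd n10_252 n10_764
def n11_508 : CT := .nd l508_ l2556_
def n11_1532 : CT := .nd l1532_ lz
def n10_508 : CT := .nd n11_508 n11_1532
def n11_1020 : CT := .nd l1020_ lz
def n11_2044 : CT := .nd l2044_ lz
def n10_1020 : CT := .nd n11_1020 n11_2044
def n9_508 : CT := .nd n10_508 n10_1020
def n8_252 : CT := .nd n9_252 n9_508
def n7_124 : CT := .nd n8_124 n8_252
def n6_60 : CT := .nd n7_60 n7_124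
def n5_28 : CT := .nd n6_28 n6_60
def n4_12 : CT := .nd n5_12 n5_28
def n3_4 : CT := .nd n4_4 n4_12
def n2_0 : CT := .nd n3_0 n3_4
def n11_2 : CT := .nd l2_ l2050_
def n11_1026 : CT := .nd l1026_ lz
def n10_2 : CT := .nd n11_2 n11_1026
def n11_514 : CT := .nd l514_ l2562_
def n11_1538 : CT := .nd l1538_ lz
def n10_514 : CT := .nd n11_514 n11_1538
def n9_2 : CT := .nd n10_2 n10_514
def n11_258 : CT := .nd l258_ l2306_
def n11_1282 : CT := .nd l1282_ lz
def n10_258 : CT := .nd n11_258 n11_1282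
def n11_770 : CT := .nd l770_ l2818_
def n11_1794 : CT := .nd l1794_ lz
def n10_770 : CT := .nd n11_770 n11_1794
def n9_258 : CT := .nd n10_258 n10_770
def n8_2 : CT := .nd n9_2 n9_258
def n11_130 : CT := .nd l130_ l2178_
def n11_1154 : CT := .nd l1154_ lz
def n10_130 : CT := .nd n11_130 n11_1154
def n11_642 : CT := .nd l642_ l2690_
def n11_1666 : CT := .nd l1666_ lz
def n10_642 : CT := .nd n11_642 n11_1666
def n9_130 : CT := .nd n10_130 n10_642
def n11_386 : CT := .nd l386_ l2434_
def n11_1410 : CT := .nd l1410_ lz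
def n10_386 : CT := .nd n11_386 n11_1410
def n11_898 : CT := .nd l898_ l2946_
def n11_1922 : CT := .nd l1922_ lz
def n10_898 : CT := .nd n11_898 n11_1922
def n9_386 : CT := .nd n10_386 n10_898
def n8_130 : CT := .nd n9_130 n9_386
def n7_2 : CT := .nd n8_2 n8_130
def n11_66 : CT := .nd l66_ l2114_
def n11_1090 : CT := .nd l1090_ lz
def n10_66 : CT := .nd n11_66 n11_1090
def n11_578 : CT := .nd l578_ l2626_
def n11_1602 : CT := .nd l1602_ lz
def n10_578 : CT := .nd n11_578 n11_1602
def n9_66 : CT := .nd n10_66 n10_578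
def n11_322 : CT := .nd l322_ l2370_
def n11_1346 : CT := .nd l1346_ lz
def n10_322 : CT := .nd n11_322 n11_1346
def n11_834 : CT := .nd l834_ l2882_
def n11_1858 : CT := .nd l1858_ lz
def n10_834 : CT := .nd n11_834 n11_1858
def n9_322 : CT := .nd n10_322 n10_834
def n8_66 : CT := .nd n9_66 n9_322
def n11_194 : CT := .nd l194_ l2242_
def n11_1218 : CT := .nd l1218_ lz
def n10_194 : CT := .nd n11_194 n11_1218
def n11_706 : CT := .nd l706_ l2754_
def n11_1730 : CT := .nd l1730_ lz
def n10_706 : CT := .nd n11_706 n11_1730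
def n9_194 : CT := .nd n10_194 n10_706
def n11_450 : CT := .nd l450_ l2498_
def n11_1474 : CT := .nd l1474_ lz
def n10_450 : CT := .nd n11_450 n11_1474
def n11_962 : CT := .nd l962_ lz
def n11_1986 : CT := .nd l1986_ lz
def n10_962 : CT := .nd n11_962 n11_1986
def n9_450 : CT := .nd n10_450 n10_962
def n8_194 : CT := .nd n9_194 n9_450
def n7_66 : CT := .nd n8_66 n8_194
def n6_2 : CT := .nd n7_2 n7_66
def n11_34 : CT := .nd l34_ l2082_
def n11_1058 : CT := .nd l1058_ lz
def n10_34 : CT := .nd n11_34 n11_1058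
def n11_546 : CT := .nd l546_ l2594_
def n11_1570 : CT := .nd l1570_ lz
def n10_546 : CT := .nd n11_546 n11_1570
def n9_34 : CT := .nd n10_34 n10_546
def n11_290 : CT := .nd l290_ l2338_
def n11_1314 : CT := .nd l1314_ lz
def n10_290 : CT := .nd n11_290 n11_1314
def n11_802 : CT := .nd l802_ l2850_
def n11_1826 : CT := .nd l1826_ lz
def n10_802 : CT := .nd n11_802 n11_1826
def n9_290 : CT := .nd n10_290 n10_802
def n8_34 : CT := .nd n9_34 n9_290
def n11_162 : CT := .nd l162_ l2210_
def n11_1186 : CT := .nd l1186_ lz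
def n10_162 : CT := .nd n11_162 n11_1186
def n11_674 : CT := .nd l674_ l2722_
def n11_1698 : CT := .nd l1698_ lz
def n10_674 : CT := .nd n11_674 n11_1698
def n9_162 : CT := .nd n10_162 n10_674
def n11_418 : CT := .nd l418_ l2466_
def n11_1442 : CT := .nd l1442_ lz
def n10_418 : CT := .nd n11_418 n11_1442
def n11_930 : CT := .nd l930_ l2978_
def n11_1954 : CT := .nd l1954_ lz
def n10_930 : CT := .nd n11_930 n11_1954
def n9_418 : CT := .nd n10_418 n10_930
def n8_162 : CT := .nd n9_162 n9_418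
def n7_34 : CT := .nd n8_34 n8_162
def n11_98 : CT := .nd l98_ l2146_
def n11_1122 : CT := .nd l1122_ lz
def n10_98 : CT := .nd n11_98 n11_1122
def n11_610 : CT := .nd l610_ l2658_
def n11_1634 : CT := .nd l1634_ lz
def n10_610 : CT := .nd n11_610 n11_1634
def n9_98 : CT := .nd n10_98 n10_610
def n11_354 : CT := .nd l354_ l2402_
def n11_1378 : CT := .nd l1378_ lz
def n10_354 : CT := .nd n11_354 n11_1378
def n11_866 : CT := .nd l866_ l2914_
def n11_1890 : CT := .nd l1890_ lz
def n10_866 : CT := .nd n11_866 n11_1890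
def n9_354 : CT := .nd n10_354 n10_866
def n8_98 : CT := .nd n9_98 n9_354
def n11_226 : CT := .nd l226_ l2274_
def n11_1250 : CT := .nd l1250_ lz
def n10_226 : CT := .nd n11_226 n11_1250
def n11_738 : CT := .nd l738_ l2786_
def n11_1762 : CT := .nd l1762_ lz
def n10_738 : CT := .nd n11_738 n11_1762
def n9_226 : CT := .nd n10_226 n10_738
def n11_482 : CT := .nd l482_ l2530_
def n11_1506 : CT := .nd l1506_ lz
def n10_482 : CT := .nd n11_482 n11_1506
def n11_994 : CT := .nd l994_ lz
def n11_2018 : CT := .nd l2018_ lz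
def n10_994 : CT := .nd n11_994 n11_2018
def n9_482 : CT := .nd n10_482 n10_994
def n8_226 : CT := .nd n9_226 n9_482
def n7_98 : CT := .nd n8_98 n8_226
def n6_34 : CT := .nd n7_34 n7_98
def n5_2 : CT := .nd n6_2 n6_34
def n11_18 : CT := .nd l18_ l2066_
def n11_1042 : CT := .nd l1042_ lz
def n10_18 : CT := .nd n11_18 n11_1042
def n11_530 : CT := .nd l530_ l2578_
def n11_1554 : CT := .nd l1554_ lz
def n10_530 : CT := .nd n11_530 n11_1554
def n9_18 : CT := .nd n10_18 n10_530
def n11_274 : CT := .nd l274_ l2322_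
def n11_1298 : CT := .nd l1298_ lz
def n10_274 : CT := .nd n11_274 n11_1298
def n11_786 : CT := .nd l786_ l2834_
def n11_1810 : CT := .nd l1810_ lz
def n10_786 : CT := .nd n11_786 n11_1810
def n9_274 : CT := .nd n10_274 n10_786
def n8_18 : CT := .nd n9_18 n9_274
def n11_146 : CT := .nd l146_ l2194_
def n11_1170 : CT := .nd l1170_ lz
def n10_146 : CT := .nd n11_146 n11_1170
def n11_658 : CT := .nd l658_ l2706_
def n11_1682 : CT := .nd l1682_ lz
def n10_658 : CT := .nd n11_658 n11_1682
def n9_146 : CT := .nd n10_146 n10_658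
def n11_402 : CT := .nd l402_ l2450_
def n11_1426 : CT := .nd l1426_ lz
def n10_402 : CT := .nd n11_402 n11_1426
def n11_914 : CT := .nd l914_ l2962_
def n11_1938 : CT := .nd l1938_ lz
def n10_914 : CT := .nd n11_914 n11_1938
def n9_402 : CT := .nd n10_402 n10_914
def n8_146 : CT := .nd n9_146 n9_402
def n7_18 : CT := .nd n8_18 n8_146
def n11_82 : CT := .nd l82_ l2130_
def n11_1106 : CT := .nd l1106_ lz
def n10_82 : CT := .nd n11_82 n11_1106
def n11_594 : CT := .nd l594_ l2642_
def n11_1618 : CT := .nd l1618_ lz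
def n10_594 : CT := .nd n11_594 n11_1618
def n9_82 : CT := .nd n10_82 n10_594
def n11_338 : CT := .nd l338_ l2386_
def n11_1362 : CT := .nd l1362_ lz
def n10_338 : CT := .nd n11_338 n11_1362
def n11_850 : CT := .nd l850_ l2898_
def n11_1874 : CT := .nd l1874_ lz
def n10_850 : CT := .nd n11_850 n11_1874
def n9_338 : CT := .nd n10_338 n10_850
def n8_82 : CT := .nd n9_82 n9_338
def n11_210 : CT := .nd l210_ l2258_
def n11_1234 : CT := .nd l1234_ lz
def n10_210 : CT := .nd n11_210 n11_1234
def n11_722 : CT := .nd l722_ l2770_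
def n11_1746 : CT := .nd l1746_ lz
def n10_722 : CT := .nd n11_722 n11_1746
def n9_210 : CT := .nd n10_210 n10_722
def n11_466 : CT := .nd l466_ l2514_
def n11_1490 : CT := .nd l1490_ lz
def n10_466 : CT := .nd n11_466 n11_1490
def n11_978 : CT := .nd l978_ lz
def n11_2002 : CT := .nd l2002_ lz
def n10_978 : CT := .nd n11_978 n11_2002
def n9_466 : CT := .nd n10_466 n10_978
def n8_210 : CT := .nd n9_210 n9_466
def n7_82 : CT := .nd n8_82 n8_210
def n6_18 : CT := .nd n7_18 n7_82
def n11_50 : CT := .nd l50_ l2098_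
def n11_1074 : CT := .nd l1074_ lz
def n10_50 : CT := .nd n11_50 n11_1074
def n11_562 : CT := .nd l562_ l2610_
def n11_1586 : CT := .nd l1586_ lz
def n10_562 : CT := .nd n11_562 n11_1586
def n9_50 : CT := .nd n10_50 n10_562
def n11_306 : CT := .nd l306_ l2354_
def n11_1330 : CT := .nd l1330_ lz
def n10_306 : CT := .nd n11_306 n11_1330
def n11_818 : CT := .nd l818_ l2866_
def n11_1842 : CT := .nd l1842_ lz
def n10_818 : CT := .nd n11_818 n11_1842
def n9_306 : CT := .nd n10_306 n10_818
def n8_50 : CT := .nd n9_50 n9_306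
def n11_178 : CT := .nd l178_ l2226_
def n11_1202 : CT := .nd l1202_ lz
def n10_178 : CT := .nd n11_178 n11_1202
def n11_690 : CT := .nd l690_ l2738_
def n11_1714 : CT := .nd l1714_ lz
def n10_690 : CT := .nd n11_690 n11_1714
def n9_178 : CT := .nd n10_178 n10_690
def n11_434 : CT := .nd l434_ l2482_
def n11_1458 : CT := .nd l1458_ lz
def n10_434 : CT := .nd n11_434 n11_1458
def n11_946 : CT := .nd l946_ lz
def n11_1970 : CT := .nd l1970_ lz
def n10_946 : CT := .nd n11_946 n11_1970
def n9_434 : CT := .nd n10_434 n10_946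
def n8_178 : CT := .nd n9_178 n9_434
def n7_50 : CT := .nd n8_50 n8_178
def n11_114 : CT := .nd l114_ l2162_
def n11_1138 : CT := .nd l1138_ lz
def n10_114 : CT := .nd n11_114 n11_1138
def n11_626 : CT := .nd l626_ l2674_
def n11_1650 : CT := .nd l1650_ lz
def n10_626 : CT := .nd n11_626 n11_1650
def n9_114 : CT := .nd n10_114 n10_626
def n11_370 : CT := .nd l370_ l2418_
def n11_1394 : CT := .nd l1394_ lz
def n10_370 : CT := .nd n11_370 n11_1394
def n11_882 : CT := .nd l882_ l2930_
def n11_1906 : CT := .nd l1906_ lz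
def n10_882 : CT := .nd n11_882 n11_1906
def n9_370 : CT := .nd n10_370 n10_882
def n8_114 : CT := .nd n9_114 n9_370
def n11_242 : CT := .nd l242_ l2290_
def n11_1266 : CT := .nd l1266_ lz
def n10_242 : CT := .nd n11_242 n11_1266
def n11_754 : CT := .nd l754_ l2802_
def n11_1778 : CT := .nd l1778_ lz
def n10_754 : CT := .nd n11_754 n11_1778
def n9_242 : CT := .nd n10_242 n10_754
def n11_498 : CT := .nd l498_ l2546_
def n11_1522 : CT := .nd l1522_ lz
def n10_498 : CT := .nd n11_498 n11_1522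
def n11_1010 : CT := .nd l1010_ lz
def n11_2034 : CT := .nd l2034_ lz
def n10_1010 : CT := .nd n11_1010 n11_2034
def n9_498 : CT := .nd n10_498 n10_1010
def n8_242 : CT := .nd n9_242 n9_498
def n7_114 : CT := .nd n8_114 n8_242
def n6_50 : CT := .nd n7_50 n7_114
def n5_18 : CT := .nd n6_18 n6_50
def n4_2 : CT := .nd n5_2 n5_18
def n11_10 : CT := .nd l10_ l2058_
def n11_1034 : CT := .nd l1034_ lz
def n10_10 : CT := .nd n11_10 n11_1034
def n11_522 : CT := .nd l522_ l2570_
def n11_1546 : CT := .nd l1546_ lz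
def n10_522 : CT := .nd n11_522 n11_1546
def n9_10 : CT := .nd n10_10 n10_522
def n11_266 : CT := .nd l266_ l2314_
def n11_1290 : CT := .nd l1290_ lz
def n10_266 : CT := .nd n11_266 n11_1290
def n11_778 : CT := .nd l778_ l2826_
def n11_1802 : CT := .nd l1802_ lz
def n10_778 : CT := .nd n11_778 n11_1802
def n9_266 : CT := .nd n10_266 n10_778
def n8_10 : CT := .nd n9_10 n9_266
def n11_138 : CT := .nd l138_ l2186_
def n11_1162 : CT := .nd l1162_ lz
def n10_138 : CT := .nd n11_138 n11_1162
def n11_650 : CT := .nd l650_ l2698_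
def n11_1674 : CT := .nd l1674_ lz
def n10_650 : CT := .nd n11_650 n11_1674
def n9_138 : CT := .nd n10_138 n10_650
def n11_394 : CT := .nd l394_ l2442_
def n11_1418 : CT := .nd l1418_ lz
def n10_394 : CT := .nd n11_394 n11_1418
def n11_906 : CT := .nd l906_ l2954_
def n11_1930 : CT := .nd l1930_ lz
def n10_906 : CT := .nd n11_906 n11_1930
def n9_394 : CT := .nd n10_394 n10_906
def n8_138 : CT := .nd n9_138 n9_394
def n7_10 : CT := .nd n8_10 n8_138
def n11_74 : CT := .nd l74_ l2122_
def n11_1098 : CT := .nd l1098_ lz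
def n10_74 : CT := .nd n11_74 n11_1098
def n11_586 : CT := .nd l586_ l2634_
def n11_1610 : CT := .nd l1610_ lz
def n10_586 : CT := .nd n11_586 n11_1610
def n9_74 : CT := .nd n10_74 n10_586
def n11_330 : CT := .nd l330_ l2378_
def n11_1354 : CT := .nd l1354_ lz
def n10_330 : CT := .nd n11_330 n11_1354
def n11_842 : CT := .nd l842_ l2890_
def n11_1866 : CT := .nd l1866_ lz
def n10_842 : CT := .nd n11_842 n11_1866
def n9_330 : CT := .nd n10_330 n10_842
def n8_74 : CT := .nd n9_74 n9_330
def n11_202 : CT := .nd l202_ l2250_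
def n11_1226 : CT := .nd l1226_ lz
def n10_202 : CT := .nd n11_202 n11_1226
def n11_714 : CT := .nd l714_ l2762_
def n11_1738 : CT := .nd l1738_ lz
def n10_714 : CT := .nd n11_714 n11_1738
def n9_202 : CT := .nd n10_202 n10_714
def n11_458 : CT := .nd l458_ l2506_
def n11_1482 : CT := .nd l1482_ lz
def n10_458 : CT := .nd n11_458 n11_1482
def n11_970 : CT := .nd l970_ lz
def n11_1994 : CT := .nd l1994_ lz
def n10_970 : CT := .nd n11_970 n11_1994
def n9_458 : CT := .nd n10_458 n10_970
def n8_202 : CT := .nd n9_202 n9_458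
def n7_74 : CT := .nd n8_74 n8_202
def n6_10 : CT := .nd n7_10 n7_74
def n11_42 : CT := .nd l42_ l2090_
def n11_1066 : CT := .nd l1066_ lz
def n10_42 : CT := .nd n11_42 n11_1066
def n11_554 : CT := .nd l554_ l2602_
def n11_1578 : CT := .nd l1578_ lz
def n10_554 : CT := .nd n11_554 n11_1578
def n9_42 : CT := .nd n10_42 n10_554
def n11_298 : CT := .nd l298_ l2346_
def n11_1322 : CT := .nd l1322_ lz
def n10_298 : CT := .nd n11_298 n11_1322
def n11_810 : CT := .nd l810_ l2858_
def n11_1834 : CT := .nd l1834_ lz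
def n10_810 : CT := .nd n11_810 n11_1834
def n9_298 : CT := .nd n10_298 n10_810
def n8_42 : CT := .nd n9_42 n9_298
def n11_170 : CT := .nd l170_ l2218_
def n11_1194 : CT := .nd l1194_ lz
def n10_170 : CT := .nd n11_170 n11_1194
def n11_682 : CT := .nd l682_ l2730_
def n11_1706 : CT := .nd l1706_ lz
def n10_682 : CT := .nd n11_682 n11_1706
def n9_170 : CT := .nd n10_170 n10_682
def n11_426 : CT := .nd l426_ l2474_
def n11_1450 : CT := .nd l1450_ lz
def n10_426 : CT := .nd n11_426 n11_1450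
def n11_938 : CT := .nd l938_ l2986_
def n11_1962 : CT := .nd l1962_ lz
def n10_938 : CT := .nd n11_938 n11_1962
def n9_426 : CT := .nd n10_426 n10_938
def n8_170 : CT := .nd n9_170 n9_426
def n7_42 : CT := .nd n8_42 n8_170
def n11_106 : CT := .nd l106_ l2154_
def n11_1130 : CT := .nd l1130_ lz
def n10_106 : CT := .nd n11_106 n11_1130
def n11_618 : CT := .nd l618_ l2666_
def n11_1642 : CT := .nd l1642_ lz
def n10_618 : CT := .nd n11_618 n11_1642
def n9_106 : CT := .nd n10_106 n10_618
def n11_362 : CT := .nd l362_ l2410_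
def n11_1386 : CT := .nd l1386_ lz
def n10_362 : CT := .nd n11_362 n11_1386
def n11_874 : CT := .nd l874_ l2922_
def n11_1898 : CT := .nd l1898_ lz
def n10_874 : CT := .nd n11_874 n11_1898
def n9_362 : CT := .nd n10_362 n10_874
def n8_106 : CT := .nd n9_106 n9_362
def n11_234 : CT := .nd l234_ l2282_
def n11_1258 : CT := .nd l1258_ lz
def n10_234 : CT := .nd n11_234 n11_1258
def n11_746 : CT := .nd l746_ l2794_
def n11_1770 : CT := .nd l1770_ lz
def n10_746 : CT := .nd n11_746 n11_1770
def n9_234 : CT := .nd n10_234 n10_746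
def n11_490 : CT := .nd l490_ l2538_
def n11_1514 : CT := .nd l1514_ lz
def n10_490 : CT := .nd n11_490 n11_1514
def n11_1002 : CT := .nd l1002_ lz
def n11_2026 : CT := .nd l2026_ lz
def n10_1002 : CT := .nd n11_1002 n11_2026
def n9_490 : CT := .nd n10_490 n10_1002
def n8_234 : CT := .nd n9_234 n9_490
def n7_106 : CT := .nd n8_106 n8_234
def n6_42 : CT := .nd n7_42 n7_106
def n5_10 : CT := .nd n6_10 n6_42
def n11_26 : CT := .nd l26_ l2074_
def n11_1050 : CT := .nd l1050_ lz
def n10_26 : CT := .nd n11_26 n11_1050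
def n11_538 : CT := .nd l538_ l2586_
def n11_1562 : CT := .nd l1562_ lz
def n10_538 : CT := .nd n11_538 n11_1562
def n9_26 : CT := .nd n10_26 n10_538
def n11_282 : CT := .nd l282_ l2330_
def n11_1306 : CT := .nd l1306_ lz
def n10_282 : CT := .nd n11_282 n11_1306
def n11_794 : CT := .nd l794_ l2842_
def n11_1818 : CT := .nd l1818_ lz
def n10_794 : CT := .nd n11_794 n11_1818
def n9_282 : CT := .nd n10_282 n10_794
def n8_26 : CT := .nd n9_26 n9_282
def n11_154 : CT := .nd l154_ l2202_
def n11_1178 : CT := .nd l1178_ lz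
def n10_154 : CT := .nd n11_154 n11_1178
def n11_666 : CT := .nd l666_ l2714_
def n11_1690 : CT := .nd l1690_ lz
def n10_666 : CT := .nd n11_666 n11_1690
def n9_154 : CT := .nd n10_154 n10_666
def n11_410 : CT := .nd l410_ l2458_
def n11_1434 : CT := .nd l1434_ lz
def n10_410 : CT := .nd n11_410 n11_1434
def n11_922 : CT := .nd l922_ l2970_
def n11_1946 : CT := .nd l1946_ lz
def n10_922 : CT := .nd n11_922 n11_1946
def n9_410 : CT := .nd n10_410 n10_922
def n8_154 : CT := .nd n9_154 n9_410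
def n7_26 : CT := .nd n8_26 n8_154
def n11_90 : CT := .nd l90_ l2138_
def n11_1114 : CT := .nd l1114_ lz
def n10_90 : CT := .nd n11_90 n11_1114
def n11_602 : CT := .nd l602_ l2650_
def n11_1626 : CT := .nd l1626_ lz
def n10_602 : CT := .nd n11_602 n11_1626
def n9_90 : CT := .nd n10_90 n10_602
def n11_346 : CT := .nd l346_ l2394_
def n11_1370 : CT := .nd l1370_ lz
def n10_346 : CT := .nd n11_346 n11_1370
def n11_858 : CT := .nd l858_ l2906_
def n11_1882 : CT := .nd l1882_ lz
def n10_858 : CT := .nd n11_858 n11_1882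
def n9_346 : CT := .nd n10_346 n10_858
def n8_90 : CT := .nd n9_90 n9_346
def n11_218 : CT := .nd l218_ l2266_
def n11_1242 : CT := .nd l1242_ lz
def n10_218 : CT := .nd n11_218 n11_1242
def n11_730 : CT := .nd l730_ l2778_
def n11_1754 : CT := .nd l1754_ lz
def n10_730 : CT := .nd n11_730 n11_1754
def n9_218 : CT := .nd n10_218 n10_730
def n11_474 : CT := .nd l474_ l2522_
def n11_1498 : CT := .nd l1498_ lz
def n10_474 : CT := .nd n11_474 n11_1498
def n11_986 : CT := .nd l986_ lz
def n11_2010 : CT := .nd l2010_ lz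
def n10_986 : CT := .nd n11_986 n11_2010
def n9_474 : CT := .nd n10_474 n10_986
def n8_218 : CT := .nd n9_218 n9_474
def n7_90 : CT := .nd n8_90 n8_218
def n6_26 : CT := .nd n7_26 n7_90
def n11_58 : CT := .nd l58_ l2106_
def n11_1082 : CT := .nd l1082_ lz
def n10_58 : CT := .nd n11_58 n11_1082
def n11_570 : CT := .nd l570_ l2618_
def n11_1594 : CT := .nd l1594_ lz
def n10_570 : CT := .nd n11_570 n11_1594
def n9_58 : CT := .nd n10_58 n10_570
def n11_314 : CT := .nd l314_ l2362_
def n11_1338 : CT := .nd l1338_ lz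
def n10_314 : CT := .nd n11_314 n11_1338
def n11_826 : CT := .nd l826_ l2874_
def n11_1850 : CT := .nd l1850_ lz
def n10_826 : CT := .nd n11_826 n11_1850
def n9_314 : CT := .nd n10_314 n10_826
def n8_58 : CT := .nd n9_58 n9_314
def n11_186 : CT := .nd l186_ l2234_
def n11_1210 : CT := .nd l1210_ lz
def n10_186 : CT := .nd n11_186 n11_1210
def n11_698 : CT := .nd l698_ l2746_
def n11_1722 : CT := .nd l1722_ lz
def n10_698 : CT := .nd n11_698 n11_1722
def n9_186 : CT := .nd n10_186 n10_698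
def n11_442 : CT := .nd l442_ l2490_
def n11_1466 : CT := .nd l1466_ lz
def n10_442 : CT := .nd n11_442 n11_1466
def n11_954 : CT := .nd l954_ lz
def n11_1978 : CT := .nd l1978_ lz
def n10_954 : CT := .nd n11_954 n11_1978
def n9_442 : CT := .nd n10_442 n10_954
def n8_186 : CT := .nd n9_186 n9_442
def n7_58 : CT := .nd n8_58 n8_186
def n11_122 : CT := .nd l122_ l2170_
def n11_1146 : CT := .nd l1146_ lz
def n10_122 : CT := .nd n11_122 n11_1146
def n11_634 : CT := .nd l634_ l2682_
def n11_1658 : CT := .nd l1658_ lz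
def n10_634 : CT := .nd n11_634 n11_1658
def n9_122 : CT := .nd n10_122 n10_634
def n11_378 : CT := .nd l378_ l2426_
def n11_1402 : CT := .nd l1402_ lz
def n10_378 : CT := .nd n11_378 n11_1402
def n11_890 : CT := .nd l890_ l2938_
def n11_1914 : CT := .nd l1914_ lz
def n10_890 : CT := .nd n11_890 n11_1914
def n9_378 : CT := .nd n10_378 n10_890
def n8_122 : CT := .nd n9_122 n9_378
def n11_250 : CT := .nd l250_ l2298_
def n11_1274 : CT := .nd l1274_ lz
def n10_250 : CT := .nd n11_250 n11_1274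
def n11_762 : CT := .nd l762_ l2810_
def n11_1786 : CT := .nd l1786_ lz
def n10_762 : CT := .nd n11_762 n11_1786
def n9_250 : CT := .nd n10_250 n10_762
def n11_506 : CT := .nd l506_ l2554_
def n11_1530 : CT := .nd l1530_ lz
def n10_506 : CT := .nd n11_506 n11_1530
def n11_1018 : CT := .nd l1018_ lz
def n11_2042 : CT := .nd l2042_ lz
def n10_1018 : CT := .nd n11_1018 n11_2042
def n9_506 : CT := .nd n10_506 n10_1018
def n8_250 : CT := .nd n9_250 n9_506
def n7_122 : CT := .nd n8_122 n8_250
def n6_58 : CT := .nd n7_58 n7_122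
def n5_26 : CT := .nd n6_26 n6_58
def n4_10 : CT := .nd n5_10 n5_26
def n3_2 : CT := .nd n4_2 n4_10
def n11_6 : CT := .nd l6_ l2054_
def n11_1030 : CT := .nd l1030_ lz
def n10_6 : CT := .nd n11_6 n11_1030
def n11_518 : CT := .nd l518_ l2566_
def n11_1542 : CT := .nd l1542_ lz
def n10_518 : CT := .nd n11_518 n11_1542
def n9_6 : CT := .nd n10_6 n10_518
def n11_262 : CT := .nd l262_ l2310_
def n11_1286 : CT := .nd l1286_ lz
def n10_262 : CT := .nd n11_262 n11_1286
def n11_774 : CT := .nd l774_ l2822_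
def n11_1798 : CT := .nd l1798_ lz
def n10_774 : CT := .nd n11_774 n11_1798
def n9_262 : CT := .nd n10_262 n10_774
def n8_6 : CT := .nd n9_6 n9_262
def n11_134 : CT := .nd l134_ l2182_
def n11_1158 : CT := .nd l1158_ lz
def n10_134 : CT := .nd n11_134 n11_1158
def n11_646 : CT := .nd l646_ l2694_
def n11_1670 : CT := .nd l1670_ lz
def n10_646 : CT := .nd n11_646 n11_1670
def n9_134 : CT := .nd n10_134 n10_646
def n11_390 : CT := .nd l390_ l2438_
def n11_1414 : CT := .nd l1414_ lz
def n10_390 : CT := .nd n11_390 n11_1414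
def n11_902 : CT := .nd l902_ l2950_
def n11_1926 : CT := .nd l1926_ lz
def n10_902 : CT := .nd n11_902 n11_1926
def n9_390 : CT := .nd n10_390 n10_902
def n8_134 : CT := .nd n9_134 n9_390
def n7_6 : CT := .nd n8_6 n8_134
def n11_70 : CT := .nd l70_ l2118_
def n11_1094 : CT := .nd l1094_ lz
def n10_70 : CT := .nd n11_70 n11_1094
def n11_582 : CT := .nd l582_ l2630_
def n11_1606 : CT := .nd l1606_ lz
def n10_582 : CT := .nd n11_582 n11_1606
def n9_70 : CT := .nd n10_70 n10_582
def n11_326 : CT := .nd l326_ l2374_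
def n11_1350 : CT := .nd l1350_ lz
def n10_326 : CT := .nd n11_326 n11_1350
def n11_838 : CT := .nd l838_ l2886_
def n11_1862 : CT := .nd l1862_ lz
def n10_838 : CT := .nd n11_838 n11_1862
def n9_326 : CT := .nd n10_326 n10_838
def n8_70 : CT := .nd n9_70 n9_326
def n11_198 : CT := .nd l198_ l2246_
def n11_1222 : CT := .nd l1222_ lz
def n10_198 : CT := .nd n11_198 n11_1222
def n11_710 : CT := .nd l710_ l2758_
def n11_1734 : CT := .nd l1734_ lz
def n10_710 : CT := .nd n11_710 n11_1734
def n9_198 : CT := .nd n10_198 n10_710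
def n11_454 : CT := .nd l454_ l2502_
def n11_1478 : CT := .nd l1478_ lz
def n10_454 : CT := .nd n11_454 n11_1478
def n11_966 : CT := .nd l966_ lz
def n11_1990 : CT := .nd l1990_ lz
def n10_966 : CT := .nd n11_966 n11_1990
def n9_454 : CT := .nd n10_454 n10_966
def n8_198 : CT := .nd n9_198 n9_454
def n7_70 : CT := .nd n8_70 n8_198
def n6_6 : CT := .nd n7_6 n7_70
def n11_38 : CT := .nd l38_ l2086_
def n11_1062 : CT := .nd l1062_ lz
def n10_38 : CT := .nd n11_38 n11_1062
def n11_550 : CT := .nd l550_ l2598_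
def n11_1574 : CT := .nd l1574_ lz
def n10_550 : CT := .nd n11_550 n11_1574
def n9_38 : CT := .nd n10_38 n10_550
def n11_294 : CT := .nd l294_ l2342_
def n11_1318 : CT := .nd l1318_ lz
def n10_294 : CT := .nd n11_294 n11_1318
def n11_806 : CT := .nd l806_ l2854_
def n11_1830 : CT := .nd l1830_ lz
def n10_806 : CT := .nd n11_806 n11_1830
def n9_294 : CT := .nd n10_294 n10_806
def n8_38 : CT := .nd n9_38 n9_294
def n11_166 : CT := .nd l166_ l2214_
def n11_1190 : CT := .nd l1190_ lz
def n10_166 : CT := .nd n11_166 n11_1190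
def n11_678 : CT := .nd l678_ l2726_
def n11_1702 : CT := .nd l1702_ lz
def n10_678 : CT := .nd n11_678 n11_1702
def n9_166 : CT := .nd n10_166 n10_678
def n11_422 : CT := .nd l422_ l2470_
def n11_1446 : CT := .nd l1446_ lz
def n10_422 : CT := .nd n11_422 n11_1446
def n11_934 : CT := .nd l934_ l2982_
def n11_1958 : CT := .nd l1958_ lz
def n10_934 : CT := .nd n11_934 n11_1958
def n9_422 : CT := .nd n10_422 n10_934
def n8_166 : CT := .nd n9_166 n9_422
def n7_38 : CT := .nd n8_38 n8_166
def n11_102 : CT := .nd l102_ l2150_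
def n11_1126 : CT := .nd l1126_ lz
def n10_102 : CT := .nd n11_102 n11_1126
def n11_614 : CT := .nd l614_ l2662_
def n11_1638 : CT := .nd l1638_ lz
def n10_614 : CT := .nd n11_614 n11_1638
def n9_102 : CT := .nd n10_102 n10_614
def n11_358 : CT := .nd l358_ l2406_
def n11_1382 : CT := .nd l1382_ lz
def n10_358 : CT := .nd n11_358 n11_1382
def n11_870 : CT := .nd l870_ l2918_
def n11_1894 : CT := .nd l1894_ lz
def n10_870 : CT := .nd n11_870 n11_1894
def n9_358 : CT := .nd n10_358 n10_870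
def n8_102 : CT := .nd n9_102 n9_358
def n11_230 : CT := .nd l230_ l2278_
def n11_1254 : CT := .nd l1254_ lz
def n10_230 : CT := .nd n11_230 n11_1254
def n11_742 : CT := .nd l742_ l2790_
def n11_1766 : CT := .nd l1766_ lz
def n10_742 : CT := .nd n11_742 n11_1766
def n9_230 : CT := .nd n10_230 n10_742
def n11_486 : CT := .nd l486_ l2534_
def n11_1510 : CT := .nd l1510_ lz
def n10_486 : CT := .nd n11_486 n11_1510
def n11_998 : CT := .nd l998_ lz
def n11_2022 : CT := .nd l2022_ lz
def n10_998 : CT := .nd n11_998 n11_2022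
def n9_486 : CT := .nd n10_486 n10_998
def n8_230 : CT := .nd n9_230 n9_486
def n7_102 : CT := .nd n8_102 n8_230
def n6_38 : CT := .nd n7_38 n7_102
def n5_6 : CT := .nd n6_6 n6_38
def n11_22 : CT := .nd l22_ l2070_
def n11_1046 : CT := .nd l1046_ lz
def n10_22 : CT := .nd n11_22 n11_1046
def n11_534 : CT := .nd l534_ l2582_
def n11_1558 : CT := .nd l1558_ lz
def n10_534 : CT := .nd n11_534 n11_1558
def n9_22 : CT := .nd n10_22 n10_534
def n11_278 : CT := .nd l278_ l2326_
def n11_1302 : CT := .nd l1302_ lz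
def n10_278 : CT := .nd n11_278 n11_1302
def n11_790 : CT := .nd l790_ l2838_
def n11_1814 : CT := .nd l1814_ lz
def n10_790 : CT := .nd n11_790 n11_1814
def n9_278 : CT := .nd n10_278 n10_790
def n8_22 : CT := .nd n9_22 n9_278
def n11_150 : CT := .nd l150_ l2198_
def n11_1174 : CT := .nd l1174_ lz
def n10_150 : CT := .nd n11_150 n11_1174
def n11_662 : CT := .nd l662_ l2710_
def n11_1686 : CT := .nd l1686_ lz
def n10_662 : CT := .nd n11_662 n11_1686
def n9_150 : CT := .nd n10_150 n10_662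
def n11_406 : CT := .nd l406_ l2454_
def n11_1430 : CT := .nd l1430_ lz
def n10_406 : CT := .nd n11_406 n11_1430
def n11_918 : CT := .nd l918_ l2966_
def n11_1942 : CT := .nd l1942_ lz
def n10_918 : CT := .nd n11_918 n11_1942
def n9_406 : CT := .nd n10_406 n10_918
def n8_150 : CT := .nd n9_150 n9_406
def n7_22 : CT := .nd n8_22 n8_150
def n11_86 : CT := .nd l86_ l2134_
def n11_1110 : CT := .nd l1110_ lz
def n10_86 : CT := .nd n11_86 n11_1110
def n11_598 : CT := .nd l598_ l2646_
def n11_1622 : CT := .nd l1622_ lz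
def n10_598 : CT := .nd n11_598 n11_1622
def n9_86 : CT := .nd n10_86 n10_598
def n11_342 : CT := .nd l342_ l2390_
def n11_1366 : CT := .nd l1366_ lz
def n10_342 : CT := .nd n11_342 n11_1366
def n11_854 : CT := .nd l854_ l2902_
def n11_1878 : CT := .nd l1878_ lz
def n10_854 : CT := .nd n11_854 n11_1878
def n9_342 : CT := .nd n10_342 n10_854
def n8_86 : CT := .nd n9_86 n9_342
def n11_214 : CT := .nd l214_ l2262_
def n11_1238 : CT := .nd l1238_ lz
def n10_214 : CT := .nd n11_214 n11_1238
def n11_726 : CT := .nd l726_ l2774_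
def n11_1750 : CT := .nd l1750_ lz
def n10_726 : CT := .nd n11_726 n11_1750
def n9_214 : CT := .nd n10_214 n10_726
def n11_470 : CT := .nd l470_ l2518_
def n11_1494 : CT := .nd l1494_ lz
def n10_470 : CT := .nd n11_470 n11_1494
def n11_982 : CT := .nd l982_ lz
def n11_2006 : CT := .nd l2006_ lz
def n10_982 : CT := .nd n11_982 n11_2006
def n9_470 : CT := .nd n10_470 n10_982
def n8_214 : CT := .nd n9_214 n9_470
def n7_86 : CT := .nd n8_86 n8_214
def n6_22 : CT := .nd n7_22 n7_86
def n11_54 : CT := .nd l54_ l2102_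
def n11_1078 : CT := .nd l1078_ lz
def n10_54 : CT := .nd n11_54 n11_1078
def n11_566 : CT := .nd l566_ l2614_
def n11_1590 : CT := .nd l1590_ lz
def n10_566 : CT := .nd n11_566 n11_1590
def n9_54 : CT := .nd n10_54 n10_566
def n11_310 : CT := .nd l310_ l2358_
def n11_1334 : CT := .nd l1334_ lz
def n10_310 : CT := .nd n11_310 n11_1334
def n11_822 : CT := .nd l822_ l2870_
def n11_1846 : CT := .nd l1846_ lz
def n10_822 : CT := .nd n11_822 n11_1846
def n9_310 : CT := .nd n10_310 n10_822
def n8_54 : CT := .nd n9_54 n9_310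
def n11_182 : CT := .nd l182_ l2230_
def n11_1206 : CT := .nd l1206_ lz
def n10_182 : CT := .nd n11_182 n11_1206
def n11_694 : CT := .nd l694_ l2742_
def n11_1718 : CT := .nd l1718_ lz
def n10_694 : CT := .nd n11_694 n11_1718
def n9_182 : CT := .nd n10_182 n10_694
def n11_438 : CT := .nd l438_ l2486_
def n11_1462 : CT := .nd l1462_ lz
def n10_438 : CT := .nd n11_438 n11_1462
def n11_950 : CT := .nd l950_ lz
def n11_1974 : CT := .nd l1974_ lz
def n10_950 : CT := .nd n11_950 n11_1974
def n9_438 : CT := .nd n10_438 n10_950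
def n8_182 : CT := .nd n9_182 n9_438
def n7_54 : CT := .nd n8_54 n8_182
def n11_118 : CT := .nd l118_ l2166_
def n11_1142 : CT := .nd l1142_ lz
def n10_118 : CT := .nd n11_118 n11_1142
def n11_630 : CT := .nd l630_ l2678_
def n11_1654 : CT := .nd l1654_ lz
def n10_630 : CT := .nd n11_630 n11_1654
def n9_118 : CT := .nd n10_118 n10_630
def n11_374 : CT := .nd l374_ l2422_
def n11_1398 : CT := .nd l1398_ lz
def n10_374 : CT := .nd n11_374 n11_1398
def n11_886 : CT := .nd l886_ l2934_
def n11_1910 : CT := .nd l1910_ lz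
def n10_886 : CT := .nd n11_886 n11_1910
def n9_374 : CT := .nd n10_374 n10_886
def n8_118 : CT := .nd n9_118 n9_374
def n11_246 : CT := .nd l246_ l2294_
def n11_1270 : CT := .nd l1270_ lz
def n10_246 : CT := .nd n11_246 n11_1270
def n11_758 : CT := .nd l758_ l2806_
def n11_1782 : CT := .nd l1782_ lz
def n10_758 : CT := .nd n11_758 n11_1782
def n9_246 : CT := .nd n10_246 n10_758
def n11_502 : CT := .nd l502_ l2550_
def n11_1526 : CT := .nd l1526_ lz
def n10_502 : CT := .nd n11_502 n11_1526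
def n11_1014 : CT := .nd l1014_ lz
def n11_2038 : CT := .nd l2038_ lz
def n10_1014 : CT := .nd n11_1014 n11_2038
def n9_502 : CT := .nd n10_502 n10_1014
def n8_246 : CT := .nd n9_246 n9_502
def n7_118 : CT := .nd n8_118 n8_246
def n6_54 : CT := .nd n7_54 n7_118
def n5_22 : CT := .nd n6_22 n6_54
def n4_6 : CT := .nd n5_6 n5_22
def n11_14 : CT := .nd l14_ l2062_
def n11_1038 : CT := .nd l1038_ lz
def n10_14 : CT := .nd n11_14 n11_1038
def n11_526 : CT := .nd l526_ l2574_
def n11_1550 : CT := .nd l1550_ lz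
def n10_526 : CT := .nd n11_526 n11_1550
def n9_14 : CT := .nd n10_14 n10_526
def n11_270 : CT := .nd l270_ l2318_
def n11_1294 : CT := .nd l1294_ lz
def n10_270 : CT := .nd n11_270 n11_1294
def n11_782 : CT := .nd l782_ l2830_
def n11_1806 : CT := .nd l1806_ lz
def n10_782 : CT := .nd n11_782 n11_1806
def n9_270 : CT := .nd n10_270 n10_782
def n8_14 : CT := .nd n9_14 n9_270
def n11_142 : CT := .nd l142_ l2190_
def n11_1166 : CT := .nd l1166_ lz
def n10_142 : CT := .nd n11_142 n11_1166
def n11_654 : CT := .nd l654_ l2702_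
def n11_1678 : CT := .nd l1678_ lz
def n10_654 : CT := .nd n11_654 n11_1678
def n9_142 : CT := .nd n10_142 n10_654
def n11_398 : CT := .nd l398_ l2446_
def n11_1422 : CT := .nd l1422_ lz
def n10_398 : CT := .nd n11_398 n11_1422
def n11_910 : CT := .nd l910_ l2958_
def n11_1934 : CT := .nd l1934_ lz
def n10_910 : CT := .nd n11_910 n11_1934
def n9_398 : CT := .nd n10_398 n10_910
def n8_142 : CT := .nd n9_142 n9_398
def n7_14 : CT := .nd n8_14 n8_142
def n11_78 : CT := .nd l78_ l2126_
def n11_1102 : CT := .nd l1102_ lz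
def n10_78 : CT := .nd n11_78 n11_1102
def n11_590 : CT := .nd l590_ l2638_
def n11_1614 : CT := .nd l1614_ lz
def n10_590 : CT := .nd n11_590 n11_1614
def n9_78 : CT := .nd n10_78 n10_590
def n11_334 : CT := .nd l334_ l2382_
def n11_1358 : CT := .nd l1358_ lz
def n10_334 : CT := .nd n11_334 n11_1358
def n11_846 : CT := .nd l846_ l2894_
def n11_1870 : CT := .nd l1870_ lz
def n10_846 : CT := .nd n11_846 n11_1870
def n9_334 : CT := .nd n10_334 n10_846
def n8_78 : CT := .nd n9_78 n9_334
def n11_206 : CT := .nd l206_ l2254_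
def n11_1230 : CT := .nd l1230_ lz
def n10_206 : CT := .nd n11_206 n11_1230
def n11_718 : CT := .nd l718_ l2766_
def n11_1742 : CT := .nd l1742_ lz
def n10_718 : CT := .nd n11_718 n11_1742
def n9_206 : CT := .nd n10_206 n10_718
def n11_462 : CT := .nd l462_ l2510_
def n11_1486 : CT := .nd l1486_ lz
def n10_462 : CT := .nd n11_462 n11_1486
def n11_974 : CT := .nd l974_ lz
def n11_1998 : CT := .nd l1998_ lz
def n10_974 : CT := .nd n11_974 n11_1998
def n9_462 : CT := .nd n10_462 n10_974
def n8_206 : CT := .nd n9_206 n9_462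
def n7_78 : CT := .nd n8_78 n8_206
def n6_14 : CT := .nd n7_14 n7_78
def n11_46 : CT := .nd l46_ l2094_
def n11_1070 : CT := .nd l1070_ lz
def n10_46 : CT := .nd n11_46 n11_1070
def n11_558 : CT := .nd l558_ l2606_
def n11_1582 : CT := .nd l1582_ lz
def n10_558 : CT := .nd n11_558 n11_1582
def n9_46 : CT := .nd n10_46 n10_558
def n11_302 : CT := .nd l302_ l2350_
def n11_1326 : CT := .nd l1326_ lz
def n10_302 : CT := .nd n11_302 n11_1326
def n11_814 : CT := .nd l814_ l2862_
def n11_1838 : CT := .nd l1838_ lz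
def n10_814 : CT := .nd n11_814 n11_1838
def n9_302 : CT := .nd n10_302 n10_814
def n8_46 : CT := .nd n9_46 n9_302
def n11_174 : CT := .nd l174_ l2222_
def n11_1198 : CT := .nd l1198_ lz
def n10_174 : CT := .nd n11_174 n11_1198
def n11_686 : CT := .nd l686_ l2734_
def n11_1710 : CT := .nd l1710_ lz
def n10_686 : CT := .nd n11_686 n11_1710
def n9_174 : CT := .nd n10_174 n10_686
def n11_430 : CT := .nd l430_ l2478_
def n11_1454 : CT := .nd l1454_ lz
def n10_430 : CT := .nd n11_430 n11_1454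
def n11_942 : CT := .nd l942_ l2990_
def n11_1966 : CT := .nd l1966_ lz
def n10_942 : CT := .nd n11_942 n11_1966
def n9_430 : CT := .nd n10_430 n10_942
def n8_174 : CT := .nd n9_174 n9_430
def n7_46 : CT := .nd n8_46 n8_174
def n11_110 : CT := .nd l110_ l2158_
def n11_1134 : CT := .nd l1134_ lz
def n10_110 : CT := .nd n11_110 n11_1134
def n11_622 : CT := .nd l622_ l2670_
def n11_1646 : CT := .nd l1646_ lz
def n10_622 : CT := .nd n11_622 n11_1646
def n9_110 : CT := .nd n10_110 n10_622
def n11_366 : CT := .nd l366_ l2414_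
def n11_1390 : CT := .nd l1390_ lz
def n10_366 : CT := .nd n11_366 n11_1390
def n11_878 : CT := .nd l878_ l2926_
def n11_1902 : CT := .nd l1902_ lz
def n10_878 : CT := .nd n11_878 n11_1902
def n9_366 : CT := .nd n10_366 n10_878
def n8_110 : CT := .nd n9_110 n9_366
def n11_238 : CT := .nd l238_ l2286_
def n11_1262 : CT := .nd l1262_ lz
def n10_238 : CT := .nd n11_238 n11_1262
def n11_750 : CT := .nd l750_ l2798_
def n11_1774 : CT := .nd l1774_ lz
def n10_750 : CT := .nd n11_750 n11_1774
def n9_238 : CT := .nd n10_238 n10_750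
def n11_494 : CT := .nd l494_ l2542_
def n11_1518 : CT := .nd l1518_ lz
def n10_494 : CT := .nd n11_494 n11_1518
def n11_1006 : CT := .nd l1006_ lz
def n11_2030 : CT := .nd l2030_ lz
def n10_1006 : CT := .nd n11_1006 n11_2030
def n9_494 : CT := .nd n10_494 n10_1006
def n8_238 : CT := .nd n9_238 n9_494
def n7_110 : CT := .nd n8_110 n8_238
def n6_46 : CT := .nd n7_46 n7_110
def n5_14 : CT := .nd n6_14 n6_46
def n11_30 : CT := .nd l30_ l2078_
def n11_1054 : CT := .nd l1054_ lz
def n10_30 : CT := .nd n11_30 n11_1054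
def n11_542 : CT := .nd l542_ l2590_
def n11_1566 : CT := .nd l1566_ lz
def n10_542 : CT := .nd n11_542 n11_1566
def n9_30 : CT := .nd n10_30 n10_542
def n11_286 : CT := .nd l286_ l2334_
def n11_1310 : CT := .nd l1310_ lz
def n10_286 : CT := .nd n11_286 n11_1310
def n11_798 : CT := .nd l798_ l2846_
def n11_1822 : CT := .nd l1822_ lz
def n10_798 : CT := .nd n11_798 n11_1822
def n9_286 : CT := .nd n10_286 n10_798
def n8_30 : CT := .nd n9_30 n9_286
def n11_158 : CT := .nd l158_ l2206_
def n11_1182 : CT := .nd l1182_ lz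
def n10_158 : CT := .nd n11_158 n11_1182
def n11_670 : CT := .nd l670_ l2718_
def n11_1694 : CT := .nd l1694_ lz
def n10_670 : CT := .nd n11_670 n11_1694
def n9_158 : CT := .nd n10_158 n10_670
def n11_414 : CT := .nd l414_ l2462_
def n11_1438 : CT := .nd l1438_ lz
def n10_414 : CT := .nd n11_414 n11_1438
def n11_926 : CT := .nd l926_ l2974_
def n11_1950 : CT := .nd l1950_ lz
def n10_926 : CT := .nd n11_926 n11_1950
def n9_414 : CT := .nd n10_414 n10_926
def n8_158 : CT := .nd n9_158 n9_414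
def n7_30 : CT := .nd n8_30 n8_158
def n11_94 : CT := .nd l94_ l2142_
def n11_1118 : CT := .nd l1118_ lz
def n10_94 : CT := .nd n11_94 n11_1118
def n11_606 : CT := .nd l606_ l2654_
def n11_1630 : CT := .nd l1630_ lz
def n10_606 : CT := .nd n11_606 n11_1630
def n9_94 : CT := .nd n10_94 n10_606
def n11_350 : CT := .nd l350_ l2398_
def n11_1374 : CT := .nd l1374_ lz
def n10_350 : CT := .nd n11_350 n11_1374
def n11_862 : CT := .nd l862_ l2910_
def n11_1886 : CT := .nd l1886_ lz
def n10_862 : CT := .nd n11_862 n11_1886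
def n9_350 : CT := .nd n10_350 n10_862
def n8_94 : CT := .nd n9_94 n9_350
def n11_222 : CT := .nd l222_ l2270_
def n11_1246 : CT := .nd l1246_ lz
def n10_222 : CT := .nd n11_222 n11_1246
def n11_734 : CT := .nd l734_ l2782_
def n11_1758 : CT := .nd l1758_ lz
def n10_734 : CT := .nd n11_734 n11_1758
def n9_222 : CT := .nd n10_222 n10_734
def n11_478 : CT := .nd l478_ l2526_
def n11_1502 : CT := .nd l1502_ lz
def n10_478 : CT := .nd n11_478 n11_1502
def n11_990 : CT := .nd l990_ lz
def n11_2014 : CT := .nd l2014_ lz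
def n10_990 : CT := .nd n11_990 n11_2014
def n9_478 : CT := .nd n10_478 n10_990
def n8_222 : CT := .nd n9_222 n9_478
def n7_94 : CT := .nd n8_94 n8_222
def n6_30 : CT := .nd n7_30 n7_94
def n11_62 : CT := .nd l62_ l2110_
def n11_1086 : CT := .nd l1086_ lz
def n10_62 : CT := .nd n11_62 n11_1086
def n11_574 : CT := .nd l574_ l2622_
def n11_1598 : CT := .nd l1598_ lz
def n10_574 : CT := .nd n11_574 n11_1598
def n9_62 : CT := .nd n10_62 n10_574
def n11_318 : CT := .nd l318_ l2366_
def n11_1342 : CT := .nd l1342_ lz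
def n10_318 : CT := .nd n11_318 n11_1342
def n11_830 : CT := .nd l830_ l2878_
def n11_1854 : CT := .nd l1854_ lz
def n10_830 : CT := .nd n11_830 n11_1854
def n9_318 : CT := .nd n10_318 n10_830
def n8_62 : CT := .nd n9_62 n9_318
def n11_190 : CT := .nd l190_ l2238_
def n11_1214 : CT := .nd l1214_ lz
def n10_190 : CT := .nd n11_190 n11_1214
def n11_702 : CT := .nd l702_ l2750_
def n11_1726 : CT := .nd l1726_ lz
def n10_702 : CT := .nd n11_702 n11_1726
def n9_190 : CT := .nd n10_190 n10_702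
def n11_446 : CT := .nd l446_ l2494_
def n11_1470 : CT := .nd l1470_ lz
def n10_446 : CT := .nd n11_446 n11_1470
def n11_958 : CT := .nd l958_ lz
def n11_1982 : CT := .nd l1982_ lz
def n10_958 : CT := .nd n11_958 n11_1982
def n9_446 : CT := .nd n10_446 n10_958
def n8_190 : CT := .nd n9_190 n9_446
def n7_62 : CT := .nd n8_62 n8_190
def n11_126 : CT := .nd l126_ l2174_
def n11_1150 : CT := .nd l1150_ lz
def n10_126 : CT := .nd n11_126 n11_1150
def n11_638 : CT := .nd l638_ l2686_
def n11_1662 : CT := .nd l1662_ lz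
def n10_638 : CT := .nd n11_638 n11_1662
def n9_126 : CT := .nd n10_126 n10_638
def n11_382 : CT := .nd l382_ l2430_
def n11_1406 : CT := .nd l1406_ lz
def n10_382 : CT := .nd n11_382 n11_1406
def n11_894 : CT := .nd l894_ l2942_
def n11_1918 : CT := .nd l1918_ lz
def n10_894 : CT := .nd n11_894 n11_1918
def n9_382 : CT := .nd n10_382 n10_894
def n8_126 : CT := .nd n9_126 n9_382
def n11_254 : CT := .nd l254_ l2302_
def n11_1278 : CT := .nd l1278_ lz
def n10_254 : CT := .nd n11_254 n11_1278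
def n11_766 : CT := .nd l766_ l2814_
def n11_1790 : CT := .nd l1790_ lz
def n10_766 : CT := .nd n11_766 n11_1790
def n9_254 : CT := .nd n10_254 n10_766
def n11_510 : CT := .nd l510_ l2558_
def n11_1534 : CT := .nd l1534_ lz
def n10_510 : CT := .nd n11_510 n11_1534
def n11_1022 : CT := .nd l1022_ lz
def n11_2046 : CT := .nd l2046_ lz
def n10_1022 : CT := .nd n11_1022 n11_2046
def n9_510 : CT := .nd n10_510 n10_1022
def n8_254 : CT := .nd n9_254 n9_510
def n7_126 : CT := .nd n8_126 n8_254
def n6_62 : CT := .nd n7_62 n7_126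
def n5_30 : CT := .nd n6_30 n6_62
def n4_14 : CT := .nd n5_14 n5_30
def n3_6 : CT := .nd n4_6 n4_14
def n2_2 : CT := .nd n3_2 n3_6
def n1_0 : CT := .nd n2_0 n2_2
def n11_1 : CT := .nd l1_ l2049_
def n11_1025 : CT := .nd l1025_ lz
def n10_1 : CT := .nd n11_1 n11_1025
def n11_513 : CT := .nd l513_ l2561_
def n11_1537 : CT := .nd l1537_ lz
def n10_513 : CT := .nd n11_513 n11_1537
def n9_1 : CT := .nd n10_1 n10_513
def n11_257 : CT := .nd l257_ l2305_
def n11_1281 : CT := .nd l1281_ lz
def n10_257 : CT := .nd n11_257 n11_1281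
def n11_769 : CT := .nd l769_ l2817_
def n11_1793 : CT := .nd l1793_ lz
def n10_769 : CT := .nd n11_769 n11_1793
def n9_257 : CT := .nd n10_257 n10_769
def n8_1 : CT := .nd n9_1 n9_257
def n11_129 : CT := .nd l129_ l2177_
def n11_1153 : CT := .nd l1153_ lz
def n10_129 : CT := .nd n11_129 n11_1153
def n11_641 : CT := .nd l641_ l2689_
def n11_1665 : CT := .nd l1665_ lz
def n10_641 : CT := .nd n11_641 n11_1665
def n9_129 : CT := .nd n10_129 n10_641
def n11_385 : CT := .nd l385_ l2433_
def n11_1409 : CT := .nd l1409_ lz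
def n10_385 : CT := .nd n11_385 n11_1409
def n11_897 : CT := .nd l897_ l2945_
def n11_1921 : CT := .nd l1921_ lz
def n10_897 : CT := .nd n11_897 n11_1921
def n9_385 : CT := .nd n10_385 n10_897
def n8_129 : CT := .nd n9_129 n9_385
def n7_1 : CT := .nd n8_1 n8_129
def n11_65 : CT := .nd l65_ l2113_
def n11_1089 : CT := .nd l1089_ lz
def n10_65 : CT := .nd n11_65 n11_1089
def n11_577 : CT := .nd l577_ l2625_
def n11_1601 : CT := .nd l1601_ lz
def n10_577 : CT := .nd n11_577 n11_1601
def n9_65 : CT := .nd n10_65 n10_577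
def n11_321 : CT := .nd l321_ l2369_
def n11_1345 : CT := .nd l1345_ lz
def n10_321 : CT := .nd n11_321 n11_1345
def n11_833 : CT := .nd l833_ l2881_
def n11_1857 : CT := .nd l1857_ lz
def n10_833 : CT := .nd n11_833 n11_1857
def n9_321 : CT := .nd n10_321 n10_833
def n8_65 : CT := .nd n9_65 n9_321
def n11_193 : CT := .nd l193_ l2241_
def n11_1217 : CT := .nd l1217_ lz
def n10_193 : CT := .nd n11_193 n11_1217
def n11_705 : CT := .nd l705_ l2753_
def n11_1729 : CT := .nd l1729_ lz
def n10_705 : CT := .nd n11_705 n11_1729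
def n9_193 : CT := .nd n10_193 n10_705
def n11_449 : CT := .nd l449_ l2497_
def n11_1473 : CT := .nd l1473_ lz
def n10_449 : CT := .nd n11_449 n11_1473
def n11_961 : CT := .nd l961_ lz
def n11_1985 : CT := .nd l1985_ lz
def n10_961 : CT := .nd n11_961 n11_1985
def n9_449 : CT := .nd n10_449 n10_961
def n8_193 : CT := .nd n9_193 n9_449
def n7_65 : CT := .nd n8_65 n8_193
def n6_1 : CT := .nd n7_1 n7_65
def n11_33 : CT := .nd l33_ l2081_
def n11_1057 : CT := .nd l1057_ lz
def n10_33 : CT := .nd n11_33 n11_1057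
def n11_545 : CT := .nd l545_ l2593_
def n11_1569 : CT := .nd l1569_ lz
def n10_545 : CT := .nd n11_545 n11_1569
def n9_33 : CT := .nd n10_33 n10_545
def n11_289 : CT := .nd l289_ l2337_
def n11_1313 : CT := .nd l1313_ lz
def n10_289 : CT := .nd n11_289 n11_1313
def n11_801 : CT := .nd l801_ l2849_
def n11_1825 : CT := .nd l1825_ lz
def n10_801 : CT := .nd n11_801 n11_1825
def n9_289 : CT := .nd n10_289 n10_801
def n8_33 : CT := .nd n9_33 n9_289
def n11_161 : CT := .nd l161_ l2209_
def n11_1185 : CT := .nd l1185_ lz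
def n10_161 : CT := .nd n11_161 n11_1185
def n11_673 : CT := .nd l673_ l2721_
def n11_1697 : CT := .nd l1697_ lz
def n10_673 : CT := .nd n11_673 n11_1697
def n9_161 : CT := .nd n10_161 n10_673
def n11_417 : CT := .nd l417_ l2465_
def n11_1441 : CT := .nd l1441_ lz
def n10_417 : CT := .nd n11_417 n11_1441
def n11_929 : CT := .nd l929_ l2977_
def n11_1953 : CT := .nd l1953_ lz
def n10_929 : CT := .nd n11_929 n11_1953
def n9_417 : CT := .nd n10_417 n10_929
def n8_161 : CT := .nd n9_161 n9_417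
def n7_33 : CT := .nd n8_33 n8_161
def n11_97 : CT := .nd l97_ l2145_
def n11_1121 : CT := .nd l1121_ lz
def n10_97 : CT := .nd n11_97 n11_1121
def n11_609 : CT := .nd l609_ l2657_
def n11_1633 : CT := .nd l1633_ lz
def n10_609 : CT := .nd n11_609 n11_1633
def n9_97 : CT := .nd n10_97 n10_609
def n11_353 : CT := .nd l353_ l2401_
def n11_1377 : CT := .nd l1377_ lz
def n10_353 : CT := .nd n11_353 n11_1377
def n11_865 : CT := .nd l865_ l2913_
def n11_1889 : CT := .nd l1889_ lz
def n10_865 : CT := .nd n11_865 n11_1889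
def n9_353 : CT := .nd n10_353 n10_865
def n8_97 : CT := .nd n9_97 n9_353
def n11_225 : CT := .nd l225_ l2273_
def n11_1249 : CT := .nd l1249_ lz
def n10_225 : CT := .nd n11_225 n11_1249
def n11_737 : CT := .nd l737_ l2785_
def n11_1761 : CT := .nd l1761_ lz
def n10_737 : CT := .nd n11_737 n11_1761
def n9_225 : CT := .nd n10_225 n10_737
def n11_481 : CT := .nd l481_ l2529_
def n11_1505 : CT := .nd l1505_ lz
def n10_481 : CT := .nd n11_481 n11_1505
def n11_993 : CT := .nd l993_ lz
def n11_2017 : CT := .nd l2017_ lz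
def n10_993 : CT := .nd n11_993 n11_2017
def n9_481 : CT := .nd n10_481 n10_993
def n8_225 : CT := .nd n9_225 n9_481
def n7_97 : CT := .nd n8_97 n8_225
def n6_33 : CT := .nd n7_33 n7_97
def n5_1 : CT := .nd n6_1 n6_33
def n11_17 : CT := .nd l17_ l2065_
def n11_1041 : CT := .nd l1041_ lz
def n10_17 : CT := .nd n11_17 n11_1041
def n11_529 : CT := .nd l529_ l2577_
def n11_1553 : CT := .nd l1553_ lz
def n10_529 : CT := .nd n11_529 n11_1553
def n9_17 : CT := .nd n10_17 n10_529
def n11_273 : CT := .nd l273_ l2321_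
def n11_1297 : CT := .nd l1297_ lz
def n10_273 : CT := .nd n11_273 n11_1297
def n11_785 : CT := .nd l785_ l2833_
def n11_1809 : CT := .nd l1809_ lz
def n10_785 : CT := .nd n11_785 n11_1809
def n9_273 : CT := .nd n10_273 n10_785
def n8_17 : CT := .nd n9_17 n9_273
def n11_145 : CT := .nd l145_ l2193_
def n11_1169 : CT := .nd l1169_ lz
def n10_145 : CT := .nd n11_145 n11_1169
def n11_657 : CT := .nd l657_ l2705_
def n11_1681 : CT := .nd l1681_ lz
def n10_657 : CT := .nd n11_657 n11_1681
def n9_145 : CT := .nd n10_145 n10_657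
def n11_401 : CT := .nd l401_ l2449_
def n11_1425 : CT := .nd l1425_ lz
def n10_401 : CT := .nd n11_401 n11_1425
def n11_913 : CT := .nd l913_ l2961_
def n11_1937 : CT := .nd l1937_ lz
def n10_913 : CT := .nd n11_913 n11_1937
def n9_401 : CT := .nd n10_401 n10_913
def n8_145 : CT := .nd n9_145 n9_401
def n7_17 : CT := .nd n8_17 n8_145
def n11_81 : CT := .nd l81_ l2129_
def n11_1105 : CT := .nd l1105_ lz
def n10_81 : CT := .nd n11_81 n11_1105
def n11_593 : CT := .nd l593_ l2641_
def n11_1617 : CT := .nd l1617_ lz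
def n10_593 : CT := .nd n11_593 n11_1617
def n9_81 : CT := .nd n10_81 n10_593
def n11_337 : CT := .nd l337_ l2385_
def n11_1361 : CT := .nd l1361_ lz
def n10_337 : CT := .nd n11_337 n11_1361
def n11_849 : CT := .nd l849_ l2897_
def n11_1873 : CT := .nd l1873_ lz
def n10_849 : CT := .nd n11_849 n11_1873
def n9_337 : CT := .nd n10_337 n10_849
def n8_81 : CT := .nd n9_81 n9_337
def n11_209 : CT := .nd l209_ l2257_
def n11_1233 : CT := .nd l1233_ lz
def n10_209 : CT := .nd n11_209 n11_1233
def n11_721 : CT := .nd l721_ l2769_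
def n11_1745 : CT := .nd l1745_ lz
def n10_721 : CT := .nd n11_721 n11_1745
def n9_209 : CT := .nd n10_209 n10_721
def n11_465 : CT := .nd l465_ l2513_
def n11_1489 : CT := .nd l1489_ lz
def n10_465 : CT := .nd n11_465 n11_1489
def n11_977 : CT := .nd l977_ lz
def n11_2001 : CT := .nd l2001_ lz
def n10_977 : CT := .nd n11_977 n11_2001
def n9_465 : CT := .nd n10_465 n10_977
def n8_209 : CT := .nd n9_209 n9_465
def n7_81 : CT := .nd n8_81 n8_209
def n6_17 : CT := .nd n7_17 n7_81
def n11_49 : CT := .nd l49_ l2097_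
def n11_1073 : CT := .nd l1073_ lz
def n10_49 : CT := .nd n11_49 n11_1073
def n11_561 : CT := .nd l561_ l2609_
def n11_1585 : CT := .nd l1585_ lz
def n10_561 : CT := .nd n11_561 n11_1585
def n9_49 : CT := .nd n10_49 n10_561
def n11_305 : CT := .nd l305_ l2353_
def n11_1329 : CT := .nd l1329_ lz
def n10_305 : CT := .nd n11_305 n11_1329
def n11_817 : CT := .nd l817_ l2865_
def n11_1841 : CT := .nd l1841_ lz
def n10_817 : CT := .nd n11_817 n11_1841
def n9_305 : CT := .nd n10_305 n10_817
def n8_49 : CT := .nd n9_49 n9_305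
def n11_177 : CT := .nd l177_ l2225_
def n11_1201 : CT := .nd l1201_ lz
def n10_177 : CT := .nd n11_177 n11_1201
def n11_689 : CT := .nd l689_ l2737_
def n11_1713 : CT := .nd l1713_ lz
def n10_689 : CT := .nd n11_689 n11_1713
def n9_177 : CT := .nd n10_177 n10_689
def n11_433 : CT := .nd l433_ l2481_
def n11_1457 : CT := .nd l1457_ lz
def n10_433 : CT := .nd n11_433 n11_1457
def n11_945 : CT := .nd l945_ lz
def n11_1969 : CT := .nd l1969_ lz
def n10_945 : CT := .nd n11_945 n11_1969
def n9_433 : CT := .nd n10_433 n10_945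
def n8_177 : CT := .nd n9_177 n9_433
def n7_49 : CT := .nd n8_49 n8_177
def n11_113 : CT := .nd l113_ l2161_
def n11_1137 : CT := .nd l1137_ lz
def n10_113 : CT := .nd n11_113 n11_1137
def n11_625 : CT := .nd l625_ l2673_
def n11_1649 : CT := .nd l1649_ lz
def n10_625 : CT := .nd n11_625 n11_1649
def n9_113 : CT := .nd n10_113 n10_625
def n11_369 : CT := .nd l369_ l2417_
def n11_1393 : CT := .nd l1393_ lz
def n10_369 : CT := .nd n11_369 n11_1393
def n11_881 : CT := .nd l881_ l2929_
def n11_1905 : CT := .nd l1905_ lz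
def n10_881 : CT := .nd n11_881 n11_1905
def n9_369 : CT := .nd n10_369 n10_881
def n8_113 : CT := .nd n9_113 n9_369
def n11_241 : CT := .nd l241_ l2289_
def n11_1265 : CT := .nd l1265_ lz
def n10_241 : CT := .nd n11_241 n11_1265
def n11_753 : CT := .nd l753_ l2801_
def n11_1777 : CT := .nd l1777_ lz
def n10_753 : CT := .nd n11_753 n11_1777
def n9_241 : CT := .nd n10_241 n10_753
def n11_497 : CT := .nd l497_ l2545_
def n11_1521 : CT := .nd l1521_ lz
def n10_497 : CT := .nd n11_497 n11_1521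
def n11_1009 : CT := .nd l1009_ lz
def n11_2033 : CT := .nd l2033_ lz
def n10_1009 : CT := .nd n11_1009 n11_2033
def n9_497 : CT := .nd n10_497 n10_1009
def n8_241 : CT := .nd n9_241 n9_497
def n7_113 : CT := .nd n8_113 n8_241
def n6_49 : CT := .nd n7_49 n7_113
def n5_17 : CT := .nd n6_17 n6_49
def n4_1 : CT := .nd n5_1 n5_17
def n11_9 : CT := .nd l9_ l2057_
def n11_1033 : CT := .nd l1033_ lz
def n10_9 : CT := .nd n11_9 n11_1033
def n11_521 : CT := .nd l521_ l2569_
def n11_1545 : CT := .nd l1545_ lz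
def n10_521 : CT := .nd n11_521 n11_1545
def n9_9 : CT := .nd n10_9 n10_521
def n11_265 : CT := .nd l265_ l2313_
def n11_1289 : CT := .nd l1289_ lz
def n10_265 : CT := .nd n11_265 n11_1289
def n11_777 : CT := .nd l777_ l2825_
def n11_1801 : CT := .nd l1801_ lz
def n10_777 : CT := .nd n11_777 n11_1801
def n9_265 : CT := .nd n10_265 n10_777
def n8_9 : CT := .nd n9_9 n9_265
def n11_137 : CT := .nd l137_ l2185_
def n11_1161 : CT := .nd l1161_ lz
def n10_137 : CT := .nd n11_137 n11_1161
def n11_649 : CT := .nd l649_ l2697_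
def n11_1673 : CT := .nd l1673_ lz
def n10_649 : CT := .nd n11_649 n11_1673
def n9_137 : CT := .nd n10_137 n10_649
def n11_393 : CT := .nd l393_ l2441_
def n11_1417 : CT := .nd l1417_ lz
def n10_393 : CT := .nd n11_393 n11_1417
def n11_905 : CT := .nd l905_ l2953_
def n11_1929 : CT := .nd l1929_ lz
def n10_905 : CT := .nd n11_905 n11_1929
def n9_393 : CT := .nd n10_393 n10_905
def n8_137 : CT := .nd n9_137 n9_393
def n7_9 : CT := .nd n8_9 n8_137
def n11_73 : CT := .nd l73_ l2121_
def n11_1097 : CT := .nd l1097_ lz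
def n10_73 : CT := .nd n11_73 n11_1097
def n11_585 : CT := .nd l585_ l2633_
def n11_1609 : CT := .nd l1609_ lz
def n10_585 : CT := .nd n11_585 n11_1609
def n9_73 : CT := .nd n10_73 n10_585
def n11_329 : CT := .nd l329_ l2377_
def n11_1353 : CT := .nd l1353_ lz
def n10_329 : CT := .nd n11_329 n11_1353
def n11_841 : CT := .nd l841_ l2889_
def n11_1865 : CT := .nd l1865_ lz
def n10_841 : CT := .nd n11_841 n11_1865
def n9_329 : CT := .nd n10_329 n10_841
def n8_73 : CT := .nd n9_73 n9_329
def n11_201 : CT := .nd l201_ l2249_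
def n11_1225 : CT := .nd l1225_ lz
def n10_201 : CT := .nd n11_201 n11_1225
def n11_713 : CT := .nd l713_ l2761_
def n11_1737 : CT := .nd l1737_ lz
def n10_713 : CT := .nd n11_713 n11_1737
def n9_201 : CT := .nd n10_201 n10_713
def n11_457 : CT := .nd l457_ l2505_
def n11_1481 : CT := .nd l1481_ lz
def n10_457 : CT := .nd n11_457 n11_1481
def n11_969 : CT := .nd l969_ lz
def n11_1993 : CT := .nd l1993_ lz
def n10_969 : CT := .nd n11_969 n11_1993
def n9_457 : CT := .nd n10_457 n10_969
def n8_201 : CT := .nd n9_201 n9_457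
def n7_73 : CT := .nd n8_73 n8_201
def n6_9 : CT := .nd n7_9 n7_73
def n11_41 : CT := .nd l41_ l2089_
def n11_1065 : CT := .nd l1065_ lz
def n10_41 : CT := .nd n11_41 n11_1065
def n11_553 : CT := .nd l553_ l2601_
def n11_1577 : CT := .nd l1577_ lz
def n10_553 : CT := .nd n11_553 n11_1577
def n9_41 : CT := .nd n10_41 n10_553
def n11_297 : CT := .nd l297_ l2345_
def n11_1321 : CT := .nd l1321_ lz
def n10_297 : CT := .nd n11_297 n11_1321
def n11_809 : CT := .nd l809_ l2857_
def n11_1833 : CT := .nd l1833_ lz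
def n10_809 : CT := .nd n11_809 n11_1833
def n9_297 : CT := .nd n10_297 n10_809
def n8_41 : CT := .nd n9_41 n9_297
def n11_169 : CT := .nd l169_ l2217_
def n11_1193 : CT := .nd l1193_ lz
def n10_169 : CT := .nd n11_169 n11_1193
def n11_681 : CT := .nd l681_ l2729_
def n11_1705 : CT := .nd l1705_ lz
def n10_681 : CT := .nd n11_681 n11_1705
def n9_169 : CT := .nd n10_169 n10_681
def n11_425 : CT := .nd l425_ l2473_
def n11_1449 : CT := .nd l1449_ lz
def n10_425 : CT := .nd n11_425 n11_1449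
def n11_937 : CT := .nd l937_ l2985_
def n11_1961 : CT := .nd l1961_ lz
def n10_937 : CT := .nd n11_937 n11_1961
def n9_425 : CT := .nd n10_425 n10_937
def n8_169 : CT := .nd n9_169 n9_425
def n7_41 : CT := .nd n8_41 n8_169
def n11_105 : CT := .nd l105_ l2153_
def n11_1129 : CT := .nd l1129_ lz
def n10_105 : CT := .nd n11_105 n11_1129
def n11_617 : CT := .nd l617_ l2665_
def n11_1641 : CT := .nd l1641_ lz
def n10_617 : CT := .nd n11_617 n11_1641
def n9_105 : CT := .nd n10_105 n10_617
def n11_361 : CT := .nd l361_ l2409_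
def n11_1385 : CT := .nd l1385_ lz
def n10_361 : CT := .nd n11_361 n11_1385
def n11_873 : CT := .nd l873_ l2921_
def n11_1897 : CT := .nd l1897_ lz
def n10_873 : CT := .nd n11_873 n11_1897
def n9_361 : CT := .nd n10_361 n10_873
def n8_105 : CT := .nd n9_105 n9_361
def n11_233 : CT := .nd l233_ l2281_
def n11_1257 : CT := .nd l1257_ lz
def n10_233 : CT := .nd n11_233 n11_1257
def n11_745 : CT := .nd l745_ l2793_
def n11_1769 : CT := .nd l1769_ lz
def n10_745 : CT := .nd n11_745 n11_1769
def n9_233 : CT := .nd n10_233 n10_745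
def n11_489 : CT := .nd l489_ l2537_
def n11_1513 : CT := .nd l1513_ lz
def n10_489 : CT := .nd n11_489 n11_1513
def n11_1001 : CT := .nd l1001_ lz
def n11_2025 : CT := .nd l2025_ lz
def n10_1001 : CT := .nd n11_1001 n11_2025
def n9_489 : CT := .nd n10_489 n10_1001
def n8_233 : CT := .nd n9_233 n9_489
def n7_105 : CT := .nd n8_105 n8_233
def n6_41 : CT := .nd n7_41 n7_105
def n5_9 : CT := .nd n6_9 n6_41
def n11_25 : CT := .nd l25_ l2073_
def n11_1049 : CT := .nd l1049_ lz
def n10_25 : CT := .nd n11_25 n11_1049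
def n11_537 : CT := .nd l537_ l2585_
def n11_1561 : CT := .nd l1561_ lz
def n10_537 : CT := .nd n11_537 n11_1561
def n9_25 : CT := .nd n10_25 n10_537
def n11_281 : CT := .nd l281_ l2329_
def n11_1305 : CT := .nd l1305_ lz
def n10_281 : CT := .nd n11_281 n11_1305
def n11_793 : CT := .nd l793_ l2841_
def n11_1817 : CT := .nd l1817_ lz
def n10_793 : CT := .nd n11_793 n11_1817
def n9_281 : CT := .nd n10_281 n10_793
def n8_25 : CT := .nd n9_25 n9_281
def n11_153 : CT := .nd l153_ l2201_
def n11_1177 : CT := .nd l1177_ lz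
def n10_153 : CT := .nd n11_153 n11_1177
def n11_665 : CT := .nd l665_ l2713_
def n11_1689 : CT := .nd l1689_ lz
def n10_665 : CT := .nd n11_665 n11_1689
def n9_153 : CT := .nd n10_153 n10_665
def n11_409 : CT := .nd l409_ l2457_
def n11_1433 : CT := .nd l1433_ lz
def n10_409 : CT := .nd n11_409 n11_1433
def n11_921 : CT := .nd l921_ l2969_
def n11_1945 : CT := .nd l1945_ lz
def n10_921 : CT := .nd n11_921 n11_1945
def n9_409 : CT := .nd n10_409 n10_921
def n8_153 : CT := .nd n9_153 n9_409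
def n7_25 : CT := .nd n8_25 n8_153
def n11_89 : CT := .nd l89_ l2137_
def n11_1113 : CT := .nd l1113_ lz
def n10_89 : CT := .nd n11_89 n11_1113
def n11_601 : CT := .nd l601_ l2649_
def n11_1625 : CT := .nd l1625_ lz
def n10_601 : CT := .nd n11_601 n11_1625
def n9_89 : CT := .nd n10_89 n10_601
def n11_345 : CT := .nd l345_ l2393_
def n11_1369 : CT := .nd l1369_ lz
def n10_345 : CT := .nd n11_345 n11_1369
def n11_857 : CT := .nd l857_ l2905_
def n11_1881 : CT := .nd l1881_ lz
def n10_857 : CT := .nd n11_857 n11_1881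
def n9_345 : CT := .nd n10_345 n10_857
def n8_89 : CT := .nd n9_89 n9_345
def n11_217 : CT := .nd l217_ l2265_
def n11_1241 : CT := .nd l1241_ lz
def n10_217 : CT := .nd n11_217 n11_1241
def n11_729 : CT := .nd l729_ l2777_
def n11_1753 : CT := .nd l1753_ lz
def n10_729 : CT := .nd n11_729 n11_1753
def n9_217 : CT := .nd n10_217 n10_729
def n11_473 : CT := .nd l473_ l2521_
def n11_1497 : CT := .nd l1497_ lz
def n10_473 : CT := .nd n11_473 n11_1497
def n11_985 : CT := .nd l985_ lz
def n11_2009 : CT := .nd l2009_ lz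
def n10_985 : CT := .nd n11_985 n11_2009
def n9_473 : CT := .nd n10_473 n10_985
def n8_217 : CT := .nd n9_217 n9_473
def n7_89 : CT := .nd n8_89 n8_217
def n6_25 : CT := .nd n7_25 n7_89
def n11_57 : CT := .nd l57_ l2105_
def n11_1081 : CT := .nd l1081_ lz
def n10_57 : CT := .nd n11_57 n11_1081
def n11_569 : CT := .nd l569_ l2617_
def n11_1593 : CT := .nd l1593_ lz
def n10_569 : CT := .nd n11_569 n11_1593
def n9_57 : CT := .nd n10_57 n10_569
def n11_313 : CT := .nd l313_ l2361_
def n11_1337 : CT := .nd l1337_ lz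
def n10_313 : CT := .nd n11_313 n11_1337
def n11_825 : CT := .nd l825_ l2873_
def n11_1849 : CT := .nd l1849_ lz
def n10_825 : CT := .nd n11_825 n11_1849
def n9_313 : CT := .nd n10_313 n10_825
def n8_57 : CT := .nd n9_57 n9_313
def n11_185 : CT := .nd l185_ l2233_
def n11_1209 : CT := .nd l1209_ lz
def n10_185 : CT := .nd n11_185 n11_1209
def n11_697 : CT := .nd l697_ l2745_
def n11_1721 : CT := .nd l1721_ lz
def n10_697 : CT := .nd n11_697 n11_1721
def n9_185 : CT := .nd n10_185 n10_697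
def n11_441 : CT := .nd l441_ l2489_
def n11_1465 : CT := .nd l1465_ lz
def n10_441 : CT := .nd n11_441 n11_1465
def n11_953 : CT := .nd l953_ lz
def n11_1977 : CT := .nd l1977_ lz
def n10_953 : CT := .nd n11_953 n11_1977
def n9_441 : CT := .nd n10_441 n10_953
def n8_185 : CT := .nd n9_185 n9_441
def n7_57 : CT := .nd n8_57 n8_185
def n11_121 : CT := .nd l121_ l2169_
def n11_1145 : CT := .nd l1145_ lz
def n10_121 : CT := .nd n11_121 n11_1145
def n11_633 : CT := .nd l633_ l2681_
def n11_1657 : CT := .nd l1657_ lz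
def n10_633 : CT := .nd n11_633 n11_1657
def n9_121 : CT := .nd n10_121 n10_633
def n11_377 : CT := .nd l377_ l2425_
def n11_1401 : CT := .nd l1401_ lz
def n10_377 : CT := .nd n11_377 n11_1401
def n11_889 : CT := .nd l889_ l2937_
def n11_1913 : CT := .nd l1913_ lz
def n10_889 : CT := .nd n11_889 n11_1913
def n9_377 : CT := .nd n10_377 n10_889
def n8_121 : CT := .nd n9_121 n9_377
def n11_249 : CT := .nd l249_ l2297_
def n11_1273 : CT := .nd l1273_ lz
def n10_249 : CT := .nd n11_249 n11_1273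
def n11_761 : CT := .nd l761_ l2809_
def n11_1785 : CT := .nd l1785_ lz
def n10_761 : CT := .nd n11_761 n11_1785
def n9_249 : CT := .nd n10_249 n10_761
def n11_505 : CT := .nd l505_ l2553_
def n11_1529 : CT := .nd l1529_ lz
def n10_505 : CT := .nd n11_505 n11_1529
def n11_1017 : CT := .nd l1017_ lz
def n11_2041 : CT := .nd l2041_ lz
def n10_1017 : CT := .nd n11_1017 n11_2041
def n9_505 : CT := .nd n10_505 n10_1017
def n8_249 : CT := .nd n9_249 n9_505
def n7_121 : CT := .nd n8_121 n8_249
def n6_57 : CT := .nd n7_57 n7_121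
def n5_25 : CT := .nd n6_25 n6_57
def n4_9 : CT := .nd n5_9 n5_25
def n3_1 : CT := .nd n4_1 n4_9
def n11_5 : CT := .nd l5_ l2053_
def n11_1029 : CT := .nd l1029_ lz
def n10_5 : CT := .nd n11_5 n11_1029
def n11_517 : CT := .nd l517_ l2565_
def n11_1541 : CT := .nd l1541_ lz
def n10_517 : CT := .nd n11_517 n11_1541
def n9_5 : CT := .nd n10_5 n10_517
def n11_261 : CT := .nd l261_ l2309_
def n11_1285 : CT := .nd l1285_ lz
def n10_261 : CT := .nd n11_261 n11_1285
def n11_773 : CT := .nd l773_ l2821_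
def n11_1797 : CT := .nd l1797_ lz
def n10_773 : CT := .nd n11_773 n11_1797
def n9_261 : CT := .nd n10_261 n10_773
def n8_5 : CT := .nd n9_5 n9_261
def n11_133 : CT := .nd l133_ l2181_
def n11_1157 : CT := .nd l1157_ lz
def n10_133 : CT := .nd n11_133 n11_1157
def n11_645 : CT := .nd l645_ l2693_
def n11_1669 : CT := .nd l1669_ lz
def n10_645 : CT := .nd n11_645 n11_1669
def n9_133 : CT := .nd n10_133 n10_645
def n11_389 : CT := .nd l389_ l2437_
def n11_1413 : CT := .nd l1413_ lz
def n10_389 : CT := .nd n11_389 n11_1413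
def n11_901 : CT := .nd l901_ l2949_
def n11_1925 : CT := .nd l1925_ lz
def n10_901 : CT := .nd n11_901 n11_1925
def n9_389 : CT := .nd n10_389 n10_901
def n8_133 : CT := .nd n9_133 n9_389
def n7_5 : CT := .nd n8_5 n8_133
def n11_69 : CT := .nd l69_ l2117_
def n11_1093 : CT := .nd l1093_ lz
def n10_69 : CT := .nd n11_69 n11_1093
def n11_581 : CT := .nd l581_ l2629_
def n11_1605 : CT := .nd l1605_ lz
def n10_581 : CT := .nd n11_581 n11_1605
def n9_69 : CT := .nd n10_69 n10_581
def n11_325 : CT := .nd l325_ l2373_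
def n11_1349 : CT := .nd l1349_ lz
def n10_325 : CT := .nd n11_325 n11_1349
def n11_837 : CT := .nd l837_ l2885_
def n11_1861 : CT := .nd l1861_ lz
def n10_837 : CT := .nd n11_837 n11_1861
def n9_325 : CT := .nd n10_325 n10_837
def n8_69 : CT := .nd n9_69 n9_325
def n11_197 : CT := .nd l197_ l2245_
def n11_1221 : CT := .nd l1221_ lz
def n10_197 : CT := .nd n11_197 n11_1221
def n11_709 : CT := .nd l709_ l2757_
def n11_1733 : CT := .nd l1733_ lz
def n10_709 : CT := .nd n11_709 n11_1733
def n9_197 : CT := .nd n10_197 n10_709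
def n11_453 : CT := .nd l453_ l2501_
def n11_1477 : CT := .nd l1477_ lz
def n10_453 : CT := .nd n11_453 n11_1477
def n11_965 : CT := .nd l965_ lz
def n11_1989 : CT := .nd l1989_ lz
def n10_965 : CT := .nd n11_965 n11_1989
def n9_453 : CT := .nd n10_453 n10_965
def n8_197 : CT := .nd n9_197 n9_453
def n7_69 : CT := .nd n8_69 n8_197
def n6_5 : CT := .nd n7_5 n7_69
def n11_37 : CT := .nd l37_ l2085_
def n11_1061 : CT := .nd l1061_ lz
def n10_37 : CT := .nd n11_37 n11_1061
def n11_549 : CT := .nd l549_ l2597_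
def n11_1573 : CT := .nd l1573_ lz
def n10_549 : CT := .nd n11_549 n11_1573
def n9_37 : CT := .nd n10_37 n10_549
def n11_293 : CT := .nd l293_ l2341_
def n11_1317 : CT := .nd l1317_ lz
def n10_293 : CT := .nd n11_293 n11_1317
def n11_805 : CT := .nd l805_ l2853_
def n11_1829 : CT := .nd l1829_ lz
def n10_805 : CT := .nd n11_805 n11_1829
def n9_293 : CT := .nd n10_293 n10_805
def n8_37 : CT := .nd n9_37 n9_293
def n11_165 : CT := .nd l165_ l2213_
def n11_1189 : CT := .nd l1189_ lz
def n10_165 : CT := .nd n11_165 n11_1189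
def n11_677 : CT := .nd l677_ l2725_
def n11_1701 : CT := .nd l1701_ lz
def n10_677 : CT := .nd n11_677 n11_1701
def n9_165 : CT := .nd n10_165 n10_677
def n11_421 : CT := .nd l421_ l2469_
def n11_1445 : CT := .nd l1445_ lz
def n10_421 : CT := .nd n11_421 n11_1445
def n11_933 : CT := .nd l933_ l2981_
def n11_1957 : CT := .nd l1957_ lz
def n10_933 : CT := .nd n11_933 n11_1957
def n9_421 : CT := .nd n10_421 n10_933
def n8_165 : CT := .nd n9_165 n9_421
def n7_37 : CT := .nd n8_37 n8_165
def n11_101 : CT := .nd l101_ l2149_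
def n11_1125 : CT := .nd l1125_ lz
def n10_101 : CT := .nd n11_101 n11_1125
def n11_613 : CT := .nd l613_ l2661_
def n11_1637 : CT := .nd l1637_ lz
def n10_613 : CT := .nd n11_613 n11_1637
def n9_101 : CT := .nd n10_101 n10_613
def n11_357 : CT := .nd l357_ l2405_
def n11_1381 : CT := .nd l1381_ lz
def n10_357 : CT := .nd n11_357 n11_1381
def n11_869 : CT := .nd l869_ l2917_
def n11_1893 : CT := .nd l1893_ lz
def n10_869 : CT := .nd n11_869 n11_1893
def n9_357 : CT := .nd n10_357 n10_869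
def n8_101 : CT := .nd n9_101 n9_357
def n11_229 : CT := .nd l229_ l2277_
def n11_1253 : CT := .nd l1253_ lz
def n10_229 : CT := .nd n11_229 n11_1253
def n11_741 : CT := .nd l741_ l2789_
def n11_1765 : CT := .nd l1765_ lz
def n10_741 : CT := .nd n11_741 n11_1765
def n9_229 : CT := .nd n10_229 n10_741
def n11_485 : CT := .nd l485_ l2533_
def n11_1509 : CT := .nd l1509_ lz
def n10_485 : CT := .nd n11_485 n11_1509
def n11_997 : CT := .nd l997_ lz
def n11_2021 : CT := .nd l2021_ lz
def n10_997 : CT := .nd n11_997 n11_2021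
def n9_485 : CT := .nd n10_485 n10_997
def n8_229 : CT := .nd n9_229 n9_485
def n7_101 : CT := .nd n8_101 n8_229
def n6_37 : CT := .nd n7_37 n7_101
def n5_5 : CT := .nd n6_5 n6_37
def n11_21 : CT := .nd l21_ l2069_
def n11_1045 : CT := .nd l1045_ lz
def n10_21 : CT := .nd n11_21 n11_1045
def n11_533 : CT := .nd l533_ l2581_
def n11_1557 : CT := .nd l1557_ lz
def n10_533 : CT := .nd n11_533 n11_1557
def n9_21 : CT := .nd n10_21 n10_533
def n11_277 : CT := .nd l277_ l2325_
def n11_1301 : CT := .nd l1301_ lz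
def n10_277 : CT := .nd n11_277 n11_1301
def n11_789 : CT := .nd l789_ l2837_
def n11_1813 : CT := .nd l1813_ lz
def n10_789 : CT := .nd n11_789 n11_1813
def n9_277 : CT := .nd n10_277 n10_789
def n8_21 : CT := .nd n9_21 n9_277
def n11_149 : CT := .nd l149_ l2197_
def n11_1173 : CT := .nd l1173_ lz
def n10_149 : CT := .nd n11_149 n11_1173
def n11_661 : CT := .nd l661_ l2709_
def n11_1685 : CT := .nd l1685_ lz
def n10_661 : CT := .nd n11_661 n11_1685
def n9_149 : CT := .nd n10_149 n10_661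
def n11_405 : CT := .nd l405_ l2453_
def n11_1429 : CT := .nd l1429_ lz
def n10_405 : CT := .nd n11_405 n11_1429
def n11_917 : CT := .nd l917_ l2965_
def n11_1941 : CT := .nd l1941_ lz
def n10_917 : CT := .nd n11_917 n11_1941
def n9_405 : CT := .nd n10_405 n10_917
def n8_149 : CT := .nd n9_149 n9_405
def n7_21 : CT := .nd n8_21 n8_149
def n11_85 : CT := .nd l85_ l2133_
def n11_1109 : CT := .nd l1109_ lz
def n10_85 : CT := .nd n11_85 n11_1109
def n11_597 : CT := .nd l597_ l2645_
def n11_1621 : CT := .nd l1621_ lz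
def n10_597 : CT := .nd n11_597 n11_1621
def n9_85 : CT := .nd n10_85 n10_597
def n11_341 : CT := .nd l341_ l2389_
def n11_1365 : CT := .nd l1365_ lz
def n10_341 : CT := .nd n11_341 n11_1365
def n11_853 : CT := .nd l853_ l2901_
def n11_1877 : CT := .nd l1877_ lz
def n10_853 : CT := .nd n11_853 n11_1877
def n9_341 : CT := .nd n10_341 n10_853
def n8_85 : CT := .nd n9_85 n9_341
def n11_213 : CT := .nd l213_ l2261_
def n11_1237 : CT := .nd l1237_ lz
def n10_213 : CT := .nd n11_213 n11_1237
def n11_725 : CT := .nd l725_ l2773_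
def n11_1749 : CT := .nd l1749_ lz
def n10_725 : CT := .nd n11_725 n11_1749
def n9_213 : CT := .nd n10_213 n10_725
def n11_469 : CT := .nd l469_ l2517_
def n11_1493 : CT := .nd l1493_ lz
def n10_469 : CT := .nd n11_469 n11_1493
def n11_981 : CT := .nd l981_ lz
def n11_2005 : CT := .nd l2005_ lz
def n10_981 : CT := .nd n11_981 n11_2005
def n9_469 : CT := .nd n10_469 n10_981
def n8_213 : CT := .nd n9_213 n9_469
def n7_85 : CT := .nd n8_85 n8_213
def n6_21 : CT := .nd n7_21 n7_85
def n11_53 : CT := .nd l53_ l2101_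
def n11_1077 : CT := .nd l1077_ lz
def n10_53 : CT := .nd n11_53 n11_1077
def n11_565 : CT := .nd l565_ l2613_
def n11_1589 : CT := .nd l1589_ lz
def n10_565 : CT := .nd n11_565 n11_1589
def n9_53 : CT := .nd n10_53 n10_565
def n11_309 : CT := .nd l309_ l2357_
def n11_1333 : CT := .nd l1333_ lz
def n10_309 : CT := .nd n11_309 n11_1333
def n11_821 : CT := .nd l821_ l2869_
def n11_1845 : CT := .nd l1845_ lz
def n10_821 : CT := .nd n11_821 n11_1845
def n9_309 : CT := .nd n10_309 n10_821
def n8_53 : CT := .nd n9_53 n9_309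
def n11_181 : CT := .nd l181_ l2229_
def n11_1205 : CT := .nd l1205_ lz
def n10_181 : CT := .nd n11_181 n11_1205
def n11_693 : CT := .nd l693_ l2741_
def n11_1717 : CT := .nd l1717_ lz
def n10_693 : CT := .nd n11_693 n11_1717
def n9_181 : CT := .nd n10_181 n10_693
def n11_437 : CT := .nd l437_ l2485_
def n11_1461 : CT := .nd l1461_ lz
def n10_437 : CT := .nd n11_437 n11_1461
def n11_949 : CT := .nd l949_ lz
def n11_1973 : CT := .nd l1973_ lz
def n10_949 : CT := .nd n11_949 n11_1973
def n9_437 : CT := .nd n10_437 n10_949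
def n8_181 : CT := .nd n9_181 n9_437
def n7_53 : CT := .nd n8_53 n8_181
def n11_117 : CT := .nd l117_ l2165_
def n11_1141 : CT := .nd l1141_ lz
def n10_117 : CT := .nd n11_117 n11_1141
def n11_629 : CT := .nd l629_ l2677_
def n11_1653 : CT := .nd l1653_ lz
def n10_629 : CT := .nd n11_629 n11_1653
def n9_117 : CT := .nd n10_117 n10_629
def n11_373 : CT := .nd l373_ l2421_
def n11_1397 : CT := .nd l1397_ lz
def n10_373 : CT := .nd n11_373 n11_1397
def n11_885 : CT := .nd l885_ l2933_
def n11_1909 : CT := .nd l1909_ lz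
def n10_885 : CT := .nd n11_885 n11_1909
def n9_373 : CT := .nd n10_373 n10_885
def n8_117 : CT := .nd n9_117 n9_373
def n11_245 : CT := .nd l245_ l2293_
def n11_1269 : CT := .nd l1269_ lz
def n10_245 : CT := .nd n11_245 n11_1269
def n11_757 : CT := .nd l757_ l2805_
def n11_1781 : CT := .nd l1781_ lz
def n10_757 : CT := .nd n11_757 n11_1781
def n9_245 : CT := .nd n10_245 n10_757
def n11_501 : CT := .nd l501_ l2549_
def n11_1525 : CT := .nd l1525_ lz
def n10_501 : CT := .nd n11_501 n11_1525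
def n11_1013 : CT := .nd l1013_ lz
def n11_2037 : CT := .nd l2037_ lz
def n10_1013 : CT := .nd n11_1013 n11_2037
def n9_501 : CT := .nd n10_501 n10_1013
def n8_245 : CT := .nd n9_245 n9_501
def n7_117 : CT := .nd n8_117 n8_245
def n6_53 : CT := .nd n7_53 n7_117
def n5_21 : CT := .nd n6_21 n6_53
def n4_5 : CT := .nd n5_5 n5_21
def n11_13 : CT := .nd l13_ l2061_
def n11_1037 : CT := .nd l1037_ lz
def n10_13 : CT := .nd n11_13 n11_1037
def n11_525 : CT := .nd l525_ l2573_
def n11_1549 : CT := .nd l1549_ lz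
def n10_525 : CT := .nd n11_525 n11_1549
def n9_13 : CT := .nd n10_13 n10_525
def n11_269 : CT := .nd l269_ l2317_
def n11_1293 : CT := .nd l1293_ lz
def n10_269 : CT := .nd n11_269 n11_1293
def n11_781 : CT := .nd l781_ l2829_
def n11_1805 : CT := .nd l1805_ lz
def n10_781 : CT := .nd n11_781 n11_1805
def n9_269 : CT := .nd n10_269 n10_781
def n8_13 : CT := .nd n9_13 n9_269
def n11_141 : CT := .nd l141_ l2189_
def n11_1165 : CT := .nd l1165_ lz
def n10_141 : CT := .nd n11_141 n11_1165
def n11_653 : CT := .nd l653_ l2701_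
def n11_1677 : CT := .nd l1677_ lz
def n10_653 : CT := .nd n11_653 n11_1677
def n9_141 : CT := .nd n10_141 n10_653
def n11_397 : CT := .nd l397_ l2445_
def n11_1421 : CT := .nd l1421_ lz
def n10_397 : CT := .nd n11_397 n11_1421
def n11_909 : CT := .nd l909_ l2957_
def n11_1933 : CT := .nd l1933_ lz
def n10_909 : CT := .nd n11_909 n11_1933
def n9_397 : CT := .nd n10_397 n10_909
def n8_141 : CT := .nd n9_141 n9_397
def n7_13 : CT := .nd n8_13 n8_141
def n11_77 : CT := .nd l77_ l2125_
def n11_1101 : CT := .nd l1101_ lz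
def n10_77 : CT := .nd n11_77 n11_1101
def n11_589 : CT := .nd l589_ l2637_
def n11_1613 : CT := .nd l1613_ lz
def n10_589 : CT := .nd n11_589 n11_1613
def n9_77 : CT := .nd n10_77 n10_589
def n11_333 : CT := .nd l333_ l2381_
def n11_1357 : CT := .nd l1357_ lz
def n10_333 : CT := .nd n11_333 n11_1357
def n11_845 : CT := .nd l845_ l2893_
def n11_1869 : CT := .nd l1869_ lz
def n10_845 : CT := .nd n11_845 n11_1869
def n9_333 : CT := .nd n10_333 n10_845
def n8_77 : CT := .nd n9_77 n9_333
def n11_205 : CT := .nd l205_ l2253_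
def n11_1229 : CT := .nd l1229_ lz
def n10_205 : CT := .nd n11_205 n11_1229
def n11_717 : CT := .nd l717_ l2765_
def n11_1741 : CT := .nd l1741_ lz
def n10_717 : CT := .nd n11_717 n11_1741
def n9_205 : CT := .nd n10_205 n10_717
def n11_461 : CT := .nd l461_ l2509_
def n11_1485 : CT := .nd l1485_ lz
def n10_461 : CT := .nd n11_461 n11_1485
def n11_973 : CT := .nd l973_ lz
def n11_1997 : CT := .nd l1997_ lz
def n10_973 : CT := .nd n11_973 n11_1997
def n9_461 : CT := .nd n10_461 n10_973
def n8_205 : CT := .nd n9_205 n9_461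
def n7_77 : CT := .nd n8_77 n8_205
def n6_13 : CT := .nd n7_13 n7_77
def n11_45 : CT := .nd l45_ l2093_
def n11_1069 : CT := .nd l1069_ lz
def n10_45 : CT := .nd n11_45 n11_1069
def n11_557 : CT := .nd l557_ l2605_
def n11_1581 : CT := .nd l1581_ lz
def n10_557 : CT := .nd n11_557 n11_1581
def n9_45 : CT := .nd n10_45 n10_557
def n11_301 : CT := .nd l301_ l2349_
def n11_1325 : CT := .nd l1325_ lz
def n10_301 : CT := .nd n11_301 n11_1325
def n11_813 : CT := .nd l813_ l2861_
def n11_1837 : CT := .nd l1837_ lz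
def n10_813 : CT := .nd n11_813 n11_1837
def n9_301 : CT := .nd n10_301 n10_813
def n8_45 : CT := .nd n9_45 n9_301
def n11_173 : CT := .nd l173_ l2221_
def n11_1197 : CT := .nd l1197_ lz
def n10_173 : CT := .nd n11_173 n11_1197
def n11_685 : CT := .nd l685_ l2733_
def n11_1709 : CT := .nd l1709_ lz
def n10_685 : CT := .nd n11_685 n11_1709
def n9_173 : CT := .nd n10_173 n10_685
def n11_429 : CT := .nd l429_ l2477_
def n11_1453 : CT := .nd l1453_ lz
def n10_429 : CT := .nd n11_429 n11_1453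
def n11_941 : CT := .nd l941_ l2989_
def n11_1965 : CT := .nd l1965_ lz
def n10_941 : CT := .nd n11_941 n11_1965
def n9_429 : CT := .nd n10_429 n10_941
def n8_173 : CT := .nd n9_173 n9_429
def n7_45 : CT := .nd n8_45 n8_173
def n11_109 : CT := .nd l109_ l2157_
def n11_1133 : CT := .nd l1133_ lz
def n10_109 : CT := .nd n11_109 n11_1133
def n11_621 : CT := .nd l621_ l2669_
def n11_1645 : CT := .nd l1645_ lz
def n10_621 : CT := .nd n11_621 n11_1645
def n9_109 : CT := .nd n10_109 n10_621
def n11_365 : CT := .nd l365_ l2413_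
def n11_1389 : CT := .nd l1389_ lz
def n10_365 : CT := .nd n11_365 n11_1389
def n11_877 : CT := .nd l877_ l2925_
def n11_1901 : CT := .nd l1901_ lz
def n10_877 : CT := .nd n11_877 n11_1901
def n9_365 : CT := .nd n10_365 n10_877
def n8_109 : CT := .nd n9_109 n9_365
def n11_237 : CT := .nd l237_ l2285_
def n11_1261 : CT := .nd l1261_ lz
def n10_237 : CT := .nd n11_237 n11_1261
def n11_749 : CT := .nd l749_ l2797_
def n11_1773 : CT := .nd l1773_ lz
def n10_749 : CT := .nd n11_749 n11_1773
def n9_237 : CT := .nd n10_237 n10_749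
def n11_493 : CT := .nd l493_ l2541_
def n11_1517 : CT := .nd l1517_ lz
def n10_493 : CT := .nd n11_493 n11_1517
def n11_1005 : CT := .nd l1005_ lz
def n11_2029 : CT := .nd l2029_ lz
def n10_1005 : CT := .nd n11_1005 n11_2029
def n9_493 : CT := .nd n10_493 n10_1005
def n8_237 : CT := .nd n9_237 n9_493
def n7_109 : CT := .nd n8_109 n8_237
def n6_45 : CT := .nd n7_45 n7_109
def n5_13 : CT := .nd n6_13 n6_45
def n11_29 : CT := .nd l29_ l2077_
def n11_1053 : CT := .nd l1053_ lz
def n10_29 : CT := .nd n11_29 n11_1053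
def n11_541 : CT := .nd l541_ l2589_
def n11_1565 : CT := .nd l1565_ lz
def n10_541 : CT := .nd n11_541 n11_1565
def n9_29 : CT := .nd n10_29 n10_541
def n11_285 : CT := .nd l285_ l2333_
def n11_1309 : CT := .nd l1309_ lz
def n10_285 : CT := .nd n11_285 n11_1309
def n11_797 : CT := .nd l797_ l2845_
def n11_1821 : CT := .nd l1821_ lz
def n10_797 : CT := .nd n11_797 n11_1821
def n9_285 : CT := .nd n10_285 n10_797
def n8_29 : CT := .nd n9_29 n9_285
def n11_157 : CT := .nd l157_ l2205_
def n11_1181 : CT := .nd l1181_ lz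
def n10_157 : CT := .nd n11_157 n11_1181
def n11_669 : CT := .nd l669_ l2717_
def n11_1693 : CT := .nd l1693_ lz
def n10_669 : CT := .nd n11_669 n11_1693
def n9_157 : CT := .nd n10_157 n10_669
def n11_413 : CT := .nd l413_ l2461_
def n11_1437 : CT := .nd l1437_ lz
def n10_413 : CT := .nd n11_413 n11_1437
def n11_925 : CT := .nd l925_ l2973_
def n11_1949 : CT := .nd l1949_ lz
def n10_925 : CT := .nd n11_925 n11_1949
def n9_413 : CT := .nd n10_413 n10_925
def n8_157 : CT := .nd n9_157 n9_413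
def n7_29 : CT := .nd n8_29 n8_157
def n11_93 : CT := .nd l93_ l2141_
def n11_1117 : CT := .nd l1117_ lz
def n10_93 : CT := .nd n11_93 n11_1117
def n11_605 : CT := .nd l605_ l2653_
def n11_1629 : CT := .nd l1629_ lz
def n10_605 : CT := .nd n11_605 n11_1629
def n9_93 : CT := .nd n10_93 n10_605
def n11_349 : CT := .nd l349_ l2397_
def n11_1373 : CT := .nd l1373_ lz
def n10_349 : CT := .nd n11_349 n11_1373
def n11_861 : CT := .nd l861_ l2909_
def n11_1885 : CT := .nd l1885_ lz
def n10_861 : CT := .nd n11_861 n11_1885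
def n9_349 : CT := .nd n10_349 n10_861
def n8_93 : CT := .nd n9_93 n9_349
def n11_221 : CT := .nd l221_ l2269_
def n11_1245 : CT := .nd l1245_ lz
def n10_221 : CT := .nd n11_221 n11_1245
def n11_733 : CT := .nd l733_ l2781_
def n11_1757 : CT := .nd l1757_ lz
def n10_733 : CT := .nd n11_733 n11_1757
def n9_221 : CT := .nd n10_221 n10_733
def n11_477 : CT := .nd l477_ l2525_
def n11_1501 : CT := .nd l1501_ lz
def n10_477 : CT := .nd n11_477 n11_1501
def n11_989 : CT := .nd l989_ lz
def n11_2013 : CT := .nd l2013_ lz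
def n10_989 : CT := .nd n11_989 n11_2013
def n9_477 : CT := .nd n10_477 n10_989
def n8_221 : CT := .nd n9_221 n9_477
def n7_93 : CT := .nd n8_93 n8_221
def n6_29 : CT := .nd n7_29 n7_93
def n11_61 : CT := .nd l61_ l2109_
def n11_1085 : CT := .nd l1085_ lz
def n10_61 : CT := .nd n11_61 n11_1085
def n11_573 : CT := .nd l573_ l2621_
def n11_1597 : CT := .nd l1597_ lz
def n10_573 : CT := .nd n11_573 n11_1597
def n9_61 : CT := .nd n10_61 n10_573
def n11_317 : CT := .nd l317_ l2365_
def n11_1341 : CT := .nd l1341_ lz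
def n10_317 : CT := .nd n11_317 n11_1341
def n11_829 : CT := .nd l829_ l2877_
def n11_1853 : CT := .nd l1853_ lz
def n10_829 : CT := .nd n11_829 n11_1853
def n9_317 : CT := .nd n10_317 n10_829
def n8_61 : CT := .nd n9_61 n9_317
def n11_189 : CT := .nd l189_ l2237_
def n11_1213 : CT := .nd l1213_ lz
def n10_189 : CT := .nd n11_189 n11_1213
def n11_701 : CT := .nd l701_ l2749_
def n11_1725 : CT := .nd l1725_ lz
def n10_701 : CT := .nd n11_701 n11_1725
def n9_189 : CT := .nd n10_189 n10_701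
def n11_445 : CT := .nd l445_ l2493_
def n11_1469 : CT := .nd l1469_ lz
def n10_445 : CT := .nd n11_445 n11_1469
def n11_957 : CT := .nd l957_ lz
def n11_1981 : CT := .nd l1981_ lz
def n10_957 : CT := .nd n11_957 n11_1981
def n9_445 : CT := .nd n10_445 n10_957
def n8_189 : CT := .nd n9_189 n9_445
def n7_61 : CT := .nd n8_61 n8_189
def n11_125 : CT := .nd l125_ l2173_
def n11_1149 : CT := .nd l1149_ lz
def n10_125 : CT := .nd n11_125 n11_1149
def n11_637 : CT := .nd l637_ l2685_
def n11_1661 : CT := .nd l1661_ lz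
def n10_637 : CT := .nd n11_637 n11_1661
def n9_125 : CT := .nd n10_125 n10_637
def n11_381 : CT := .nd l381_ l2429_
def n11_1405 : CT := .nd l1405_ lz
def n10_381 : CT := .nd n11_381 n11_1405
def n11_893 : CT := .nd l893_ l2941_
def n11_1917 : CT := .nd l1917_ lz
def n10_893 : CT := .nd n11_893 n11_1917
def n9_381 : CT := .nd n10_381 n10_893
def n8_125 : CT := .nd n9_125 n9_381
def n11_253 : CT := .nd l253_ l2301_
def n11_1277 : CT := .nd l1277_ lz
def n10_253 : CT := .nd n11_253 n11_1277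
def n11_765 : CT := .nd l765_ l2813_
def n11_1789 : CT := .nd l1789_ lz
def n10_765 : CT := .nd n11_765 n11_1789
def n9_253 : CT := .nd n10_253 n10_765
def n11_509 : CT := .nd l509_ l2557_
def n11_1533 : CT := .nd l1533_ lz
def n10_509 : CT := .nd n11_509 n11_1533
def n11_1021 : CT := .nd l1021_ lz
def n11_2045 : CT := .nd l2045_ lz
def n10_1021 : CT := .nd n11_1021 n11_2045
def n9_509 : CT := .nd n10_509 n10_1021
def n8_253 : CT := .nd n9_253 n9_509
def n7_125 : CT := .nd n8_125 n8_253
def n6_61 : CT := .nd n7_61 n7_125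
def n5_29 : CT := .nd n6_29 n6_61
def n4_13 : CT := .nd n5_13 n5_29
def n3_5 : CT := .nd n4_5 n4_13
def n2_1 : CT := .nd n3_1 n3_5
def n11_3 : CT := .nd l3_ l2051_
def n11_1027 : CT := .nd l1027_ lz
def n10_3 : CT := .nd n11_3 n11_1027
def n11_515 : CT := .nd l515_ l2563_
def n11_1539 : CT := .nd l1539_ lz
def n10_515 : CT := .nd n11_515 n11_1539
def n9_3 : CT := .nd n10_3 n10_515
def n11_259 : CT := .nd l259_ l2307_
def n11_1283 : CT := .nd l1283_ lz
def n10_259 : CT := .nd n11_259 n11_1283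
def n11_771 : CT := .nd l771_ l2819_
def n11_1795 : CT := .nd l1795_ lz
def n10_771 : CT := .nd n11_771 n11_1795
def n9_259 : CT := .nd n10_259 n10_771
def n8_3 : CT := .nd n9_3 n9_259
def n11_131 : CT := .nd l131_ l2179_
def n11_1155 : CT := .nd l1155_ lz
def n10_131 : CT := .nd n11_131 n11_1155
def n11_643 : CT := .nd l643_ l2691_
def n11_1667 : CT := .nd l1667_ lz
def n10_643 : CT := .nd n11_643 n11_1667
def n9_131 : CT := .nd n10_131 n10_643
def n11_387 : CT := .nd l387_ l2435_
def n11_1411 : CT := .nd l1411_ lz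
def n10_387 : CT := .nd n11_387 n11_1411
def n11_899 : CT := .nd l899_ l2947_
def n11_1923 : CT := .nd l1923_ lz
def n10_899 : CT := .nd n11_899 n11_1923
def n9_387 : CT := .nd n10_387 n10_899
def n8_131 : CT := .nd n9_131 n9_387
def n7_3 : CT := .nd n8_3 n8_131
def n11_67 : CT := .nd l67_ l2115_
def n11_1091 : CT := .nd l1091_ lz
def n10_67 : CT := .nd n11_67 n11_1091
def n11_579 : CT := .nd l579_ l2627_
def n11_1603 : CT := .nd l1603_ lz
def n10_579 : CT := .nd n11_579 n11_1603
def n9_67 : CT := .nd n10_67 n10_579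
def n11_323 : CT := .nd l323_ l2371_
def n11_1347 : CT := .nd l1347_ lz
def n10_323 : CT := .nd n11_323 n11_1347
def n11_835 : CT := .nd l835_ l2883_
def n11_1859 : CT := .nd l1859_ lz
def n10_835 : CT := .nd n11_835 n11_1859
def n9_323 : CT := .nd n10_323 n10_835
def n8_67 : CT := .nd n9_67 n9_323
def n11_195 : CT := .nd l195_ l2243_
def n11_1219 : CT := .nd l1219_ lz
def n10_195 : CT := .nd n11_195 n11_1219
def n11_707 : CT := .nd l707_ l2755_
def n11_1731 : CT := .nd l1731_ lz
def n10_707 : CT := .nd n11_707 n11_1731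
def n9_195 : CT := .nd n10_195 n10_707
def n11_451 : CT := .nd l451_ l2499_
def n11_1475 : CT := .nd l1475_ lz
def n10_451 : CT := .nd n11_451 n11_1475
def n11_963 : CT := .nd l963_ lz
def n11_1987 : CT := .nd l1987_ lz
def n10_963 : CT := .nd n11_963 n11_1987
def n9_451 : CT := .nd n10_451 n10_963
def n8_195 : CT := .nd n9_195 n9_451
def n7_67 : CT := .nd n8_67 n8_195
def n6_3 : CT := .nd n7_3 n7_67
def n11_35 : CT := .nd l35_ l2083_
def n11_1059 : CT := .nd l1059_ lz
def n10_35 : CT := .nd n11_35 n11_1059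
def n11_547 : CT := .nd l547_ l2595_
def n11_1571 : CT := .nd l1571_ lz
def n10_547 : CT := .nd n11_547 n11_1571
def n9_35 : CT := .nd n10_35 n10_547
def n11_291 : CT := .nd l291_ l2339_
def n11_1315 : CT := .nd l1315_ lz
def n10_291 : CT := .nd n11_291 n11_1315
def n11_803 : CT := .nd l803_ l2851_
def n11_1827 : CT := .nd l1827_ lz
def n10_803 : CT := .nd n11_803 n11_1827
def n9_291 : CT := .nd n10_291 n10_803
def n8_35 : CT := .nd n9_35 n9_291
def n11_163 : CT := .nd l163_ l2211_
def n11_1187 : CT := .nd l1187_ lz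
def n10_163 : CT := .nd n11_163 n11_1187
def n11_675 : CT := .nd l675_ l2723_
def n11_1699 : CT := .nd l1699_ lz
def n10_675 : CT := .nd n11_675 n11_1699
def n9_163 : CT := .nd n10_163 n10_675
def n11_419 : CT := .nd l419_ l2467_
def n11_1443 : CT := .nd l1443_ lz
def n10_419 : CT := .nd n11_419 n11_1443
def n11_931 : CT := .nd l931_ l2979_
def n11_1955 : CT := .nd l1955_ lz
def n10_931 : CT := .nd n11_931 n11_1955
def n9_419 : CT := .nd n10_419 n10_931
def n8_163 : CT := .nd n9_163 n9_419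
def n7_35 : CT := .nd n8_35 n8_163
def n11_99 : CT := .nd l99_ l2147_
def n11_1123 : CT := .nd l1123_ lz
def n10_99 : CT := .nd n11_99 n11_1123
def n11_611 : CT := .nd l611_ l2659_
def n11_1635 : CT := .nd l1635_ lz
def n10_611 : CT := .nd n11_611 n11_1635
def n9_99 : CT := .nd n10_99 n10_611
def n11_355 : CT := .nd l355_ l2403_
def n11_1379 : CT := .nd l1379_ lz
def n10_355 : CT := .nd n11_355 n11_1379
def n11_867 : CT := .nd l867_ l2915_
def n11_1891 : CT := .nd l1891_ lz
def n10_867 : CT := .nd n11_867 n11_1891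
def n9_355 : CT := .nd n10_355 n10_867
def n8_99 : CT := .nd n9_99 n9_355
def n11_227 : CT := .nd l227_ l2275_
def n11_1251 : CT := .nd l1251_ lz
def n10_227 : CT := .nd n11_227 n11_1251
def n11_739 : CT := .nd l739_ l2787_
def n11_1763 : CT := .nd l1763_ lz
def n10_739 : CT := .nd n11_739 n11_1763
def n9_227 : CT := .nd n10_227 n10_739
def n11_483 : CT := .nd l483_ l2531_
def n11_1507 : CT := .nd l1507_ lz
def n10_483 : CT := .nd n11_483 n11_1507
def n11_995 : CT := .nd l995_ lz
def n11_2019 : CT := .nd l2019_ lz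
def n10_995 : CT := .nd n11_995 n11_2019
def n9_483 : CT := .nd n10_483 n10_995
def n8_227 : CT := .nd n9_227 n9_483
def n7_99 : CT := .nd n8_99 n8_227
def n6_35 : CT := .nd n7_35 n7_99
def n5_3 : CT := .nd n6_3 n6_35
def n11_19 : CT := .nd l19_ l2067_
def n11_1043 : CT := .nd l1043_ lz
def n10_19 : CT := .nd n11_19 n11_1043
def n11_531 : CT := .nd l531_ l2579_
def n11_1555 : CT := .nd l1555_ lz
def n10_531 : CT := .nd n11_531 n11_1555
def n9_19 : CT := .nd n10_19 n10_531
def n11_275 : CT := .nd l275_ l2323_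
def n11_1299 : CT := .nd l1299_ lz
def n10_275 : CT := .nd n11_275 n11_1299
def n11_787 : CT := .nd l787_ l2835_
def n11_1811 : CT := .nd l1811_ lz
def n10_787 : CT := .nd n11_787 n11_1811
def n9_275 : CT := .nd n10_275 n10_787
def n8_19 : CT := .nd n9_19 n9_275
def n11_147 : CT := .nd l147_ l2195_
def n11_1171 : CT := .nd l1171_ lz
def n10_147 : CT := .nd n11_147 n11_1171
def n11_659 : CT := .nd l659_ l2707_
def n11_1683 : CT := .nd l1683_ lz
def n10_659 : CT := .nd n11_659 n11_1683
def n9_147 : CT := .nd n10_147 n10_659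
def n11_403 : CT := .nd l403_ l2451_
def n11_1427 : CT := .nd l1427_ lz
def n10_403 : CT := .nd n11_403 n11_1427
def n11_915 : CT := .nd l915_ l2963_
def n11_1939 : CT := .nd l1939_ lz
def n10_915 : CT := .nd n11_915 n11_1939
def n9_403 : CT := .nd n10_403 n10_915
def n8_147 : CT := .nd n9_147 n9_403
def n7_19 : CT := .nd n8_19 n8_147
def n11_83 : CT := .nd l83_ l2131_
def n11_1107 : CT := .nd l1107_ lz
def n10_83 : CT := .nd n11_83 n11_1107
def n11_595 : CT := .nd l595_ l2643_
def n11_1619 : CT := .nd l1619_ lz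
def n10_595 : CT := .nd n11_595 n11_1619
def n9_83 : CT := .nd n10_83 n10_595
def n11_339 : CT := .nd l339_ l2387_
def n11_1363 : CT := .nd l1363_ lz
def n10_339 : CT := .nd n11_339 n11_1363
def n11_851 : CT := .nd l851_ l2899_
def n11_1875 : CT := .nd l1875_ lz
def n10_851 : CT := .nd n11_851 n11_1875
def n9_339 : CT := .nd n10_339 n10_851
def n8_83 : CT := .nd n9_83 n9_339
def n11_211 : CT := .nd l211_ l2259_
def n11_1235 : CT := .nd l1235_ lz
def n10_211 : CT := .nd n11_211 n11_1235
def n11_723 : CT := .nd l723_ l2771_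
def n11_1747 : CT := .nd l1747_ lz
def n10_723 : CT := .nd n11_723 n11_1747
def n9_211 : CT := .nd n10_211 n10_723
def n11_467 : CT := .nd l467_ l2515_
def n11_1491 : CT := .nd l1491_ lz
def n10_467 : CT := .nd n11_467 n11_1491
def n11_979 : CT := .nd l979_ lz
def n11_2003 : CT := .nd l2003_ lz
def n10_979 : CT := .nd n11_979 n11_2003
def n9_467 : CT := .nd n10_467 n10_979
def n8_211 : CT := .nd n9_211 n9_467
def n7_83 : CT := .nd n8_83 n8_211
def n6_19 : CT := .nd n7_19 n7_83
def n11_51 : CT := .nd l51_ l2099_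
def n11_1075 : CT := .nd l1075_ lz
def n10_51 : CT := .nd n11_51 n11_1075
def n11_563 : CT := .nd l563_ l2611_
def n11_1587 : CT := .nd l1587_ lz
def n10_563 : CT := .nd n11_563 n11_1587
def n9_51 : CT := .nd n10_51 n10_563
def n11_307 : CT := .nd l307_ l2355_
def n11_1331 : CT := .nd l1331_ lz
def n10_307 : CT := .nd n11_307 n11_1331
def n11_819 : CT := .nd l819_ l2867_
def n11_1843 : CT := .nd l1843_ lz
def n10_819 : CT := .nd n11_819 n11_1843
def n9_307 : CT := .nd n10_307 n10_819
def n8_51 : CT := .nd n9_51 n9_307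
def n11_179 : CT := .nd l179_ l2227_
def n11_1203 : CT := .nd l1203_ lz
def n10_179 : CT := .nd n11_179 n11_1203
def n11_691 : CT := .nd l691_ l2739_
def n11_1715 : CT := .nd l1715_ lz
def n10_691 : CT := .nd n11_691 n11_1715
def n9_179 : CT := .nd n10_179 n10_691
def n11_435 : CT := .nd l435_ l2483_
def n11_1459 : CT := .nd l1459_ lz
def n10_435 : CT := .nd n11_435 n11_1459
def n11_947 : CT := .nd l947_ lz
def n11_1971 : CT := .nd l1971_ lz
def n10_947 : CT := .nd n11_947 n11_1971
def n9_435 : CT := .nd n10_435 n10_947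
def n8_179 : CT := .nd n9_179 n9_435
def n7_51 : CT := .nd n8_51 n8_179
def n11_115 : CT := .nd l115_ l2163_
def n11_1139 : CT := .nd l1139_ lz
def n10_115 : CT := .nd n11_115 n11_1139
def n11_627 : CT := .nd l627_ l2675_
def n11_1651 : CT := .nd l1651_ lz
def n10_627 : CT := .nd n11_627 n11_1651
def n9_115 : CT := .nd n10_115 n10_627
def n11_371 : CT := .nd l371_ l2419_
def n11_1395 : CT := .nd l1395_ lz
def n10_371 : CT := .nd n11_371 n11_1395
def n11_883 : CT := .nd l883_ l2931_
def n11_1907 : CT := .nd l1907_ lz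
def n10_883 : CT := .nd n11_883 n11_1907
def n9_371 : CT := .nd n10_371 n10_883
def n8_115 : CT := .nd n9_115 n9_371
def n11_243 : CT := .nd l243_ l2291_
def n11_1267 : CT := .nd l1267_ lz
def n10_243 : CT := .nd n11_243 n11_1267
def n11_755 : CT := .nd l755_ l2803_
def n11_1779 : CT := .nd l1779_ lz
def n10_755 : CT := .nd n11_755 n11_1779
def n9_243 : CT := .nd n10_243 n10_755
def n11_499 : CT := .nd l499_ l2547_
def n11_1523 : CT := .nd l1523_ lz
def n10_499 : CT := .nd n11_499 n11_1523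
def n11_1011 : CT := .nd l1011_ lz
def n11_2035 : CT := .nd l2035_ lz
def n10_1011 : CT := .nd n11_1011 n11_2035
def n9_499 : CT := .nd n10_499 n10_1011
def n8_243 : CT := .nd n9_243 n9_499
def n7_115 : CT := .nd n8_115 n8_243
def n6_51 : CT := .nd n7_51 n7_115
def n5_19 : CT := .nd n6_19 n6_51
def n4_3 : CT := .nd n5_3 n5_19
def n11_11 : CT := .nd l11_ l2059_
def n11_1035 : CT := .nd l1035_ lz
def n10_11 : CT := .nd n11_11 n11_1035
def n11_523 : CT := .nd l523_ l2571_
def n11_1547 : CT := .nd l1547_ lz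
def n10_523 : CT := .nd n11_523 n11_1547
def n9_11 : CT := .nd n10_11 n10_523
def n11_267 : CT := .nd l267_ l2315_
def n11_1291 : CT := .nd l1291_ lz
def n10_267 : CT := .nd n11_267 n11_1291
def n11_779 : CT := .nd l779_ l2827_
def n11_1803 : CT := .nd l1803_ lz
def n10_779 : CT := .nd n11_779 n11_1803
def n9_267 : CT := .nd n10_267 n10_779
def n8_11 : CT := .nd n9_11 n9_267
def n11_139 : CT := .nd l139_ l2187_
def n11_1163 : CT := .nd l1163_ lz
def n10_139 : CT := .nd n11_139 n11_1163
def n11_651 : CT := .nd l651_ l2699_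
def n11_1675 : CT := .nd l1675_ lz
def n10_651 : CT := .nd n11_651 n11_1675
def n9_139 : CT := .nd n10_139 n10_651
def n11_395 : CT := .nd l395_ l2443_
def n11_1419 : CT := .nd l1419_ lz
def n10_395 : CT := .nd n11_395 n11_1419
def n11_907 : CT := .nd l907_ l2955_
def n11_1931 : CT := .nd l1931_ lz
def n10_907 : CT := .nd n11_907 n11_1931
def n9_395 : CT := .nd n10_395 n10_907
def n8_139 : CT := .nd n9_139 n9_395
def n7_11 : CT := .nd n8_11 n8_139
def n11_75 : CT := .nd l75_ l2123_
def n11_1099 : CT := .nd l1099_ lz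
def n10_75 : CT := .nd n11_75 n11_1099
def n11_587 : CT := .nd l587_ l2635_
def n11_1611 : CT := .nd l1611_ lz
def n10_587 : CT := .nd n11_587 n11_1611
def n9_75 : CT := .nd n10_75 n10_587
def n11_331 : CT := .nd l331_ l2379_
def n11_1355 : CT := .nd l1355_ lz
def n10_331 : CT := .nd n11_331 n11_1355
def n11_843 : CT := .nd l843_ l2891_
def n11_1867 : CT := .nd l1867_ lz
def n10_843 : CT := .nd n11_843 n11_1867
def n9_331 : CT := .nd n10_331 n10_843
def n8_75 : CT := .nd n9_75 n9_331
def n11_203 : CT := .nd l203_ l2251_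
def n11_1227 : CT := .nd l1227_ lz
def n10_203 : CT := .nd n11_203 n11_1227
def n11_715 : CT := .nd l715_ l2763_
def n11_1739 : CT := .nd l1739_ lz
def n10_715 : CT := .nd n11_715 n11_1739
def n9_203 : CT := .nd n10_203 n10_715
def n11_459 : CT := .nd l459_ l2507_
def n11_1483 : CT := .nd l1483_ lz
def n10_459 : CT := .nd n11_459 n11_1483
def n11_971 : CT := .nd l971_ lz
def n11_1995 : CT := .nd l1995_ lz
def n10_971 : CT := .nd n11_971 n11_1995
def n9_459 : CT := .nd n10_459 n10_971
def n8_203 : CT := .nd n9_203 n9_459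
def n7_75 : CT := .nd n8_75 n8_203
def n6_11 : CT := .nd n7_11 n7_75
def n11_43 : CT := .nd l43_ l2091_
def n11_1067 : CT := .nd l1067_ lz
def n10_43 : CT := .nd n11_43 n11_1067
def n11_555 : CT := .nd l555_ l2603_
def n11_1579 : CT := .nd l1579_ lz
def n10_555 : CT := .nd n11_555 n11_1579
def n9_43 : CT := .nd n10_43 n10_555
def n11_299 : CT := .nd l299_ l2347_
def n11_1323 : CT := .nd l1323_ lz
def n10_299 : CT := .nd n11_299 n11_1323
def n11_811 : CT := .nd l811_ l2859_
def n11_1835 : CT := .nd l1835_ lz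
def n10_811 : CT := .nd n11_811 n11_1835
def n9_299 : CT := .nd n10_299 n10_811
def n8_43 : CT := .nd n9_43 n9_299
def n11_171 : CT := .nd l171_ l2219_
def n11_1195 : CT := .nd l1195_ lz
def n10_171 : CT := .nd n11_171 n11_1195
def n11_683 : CT := .nd l683_ l2731_
def n11_1707 : CT := .nd l1707_ lz
def n10_683 : CT := .nd n11_683 n11_1707
def n9_171 : CT := .nd n10_171 n10_683
def n11_427 : CT := .nd l427_ l2475_
def n11_1451 : CT := .nd l1451_ lz
def n10_427 : CT := .nd n11_427 n11_1451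
def n11_939 : CT := .nd l939_ l2987_
def n11_1963 : CT := .nd l1963_ lz
def n10_939 : CT := .nd n11_939 n11_1963
def n9_427 : CT := .nd n10_427 n10_939
def n8_171 : CT := .nd n9_171 n9_427
def n7_43 : CT := .nd n8_43 n8_171
def n11_107 : CT := .nd l107_ l2155_
def n11_1131 : CT := .nd l1131_ lz
def n10_107 : CT := .nd n11_107 n11_1131
def n11_619 : CT := .nd l619_ l2667_
def n11_1643 : CT := .nd l1643_ lz
def n10_619 : CT := .nd n11_619 n11_1643
def n9_107 : CT := .nd n10_107 n10_619
def n11_363 : CT := .nd l363_ l2411_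
def n11_1387 : CT := .nd l1387_ lz
def n10_363 : CT := .nd n11_363 n11_1387
def n11_875 : CT := .nd l875_ l2923_
def n11_1899 : CT := .nd l1899_ lz
def n10_875 : CT := .nd n11_875 n11_1899
def n9_363 : CT := .nd n10_363 n10_875
def n8_107 : CT := .nd n9_107 n9_363
def n11_235 : CT := .nd l235_ l2283_
def n11_1259 : CT := .nd l1259_ lz
def n10_235 : CT := .nd n11_235 n11_1259
def n11_747 : CT := .nd l747_ l2795_
def n11_1771 : CT := .nd l1771_ lz
def n10_747 : CT := .nd n11_747 n11_1771
def n9_235 : CT := .nd n10_235 n10_747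
def n11_491 : CT := .nd l491_ l2539_
def n11_1515 : CT := .nd l1515_ lz
def n10_491 : CT := .nd n11_491 n11_1515
def n11_1003 : CT := .nd l1003_ lz
def n11_2027 : CT := .nd l2027_ lz
def n10_1003 : CT := .nd n11_1003 n11_2027
def n9_491 : CT := .nd n10_491 n10_1003
def n8_235 : CT := .nd n9_235 n9_491
def n7_107 : CT := .nd n8_107 n8_235
def n6_43 : CT := .nd n7_43 n7_107
def n5_11 : CT := .nd n6_11 n6_43
def n11_27 : CT := .nd l27_ l2075_
def n11_1051 : CT := .nd l1051_ lz
def n10_27 : CT := .nd n11_27 n11_1051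
def n11_539 : CT := .nd l539_ l2587_
def n11_1563 : CT := .nd l1563_ lz
def n10_539 : CT := .nd n11_539 n11_1563
def n9_27 : CT := .nd n10_27 n10_539
def n11_283 : CT := .nd l283_ l2331_
def n11_1307 : CT := .nd l1307_ lz
def n10_283 : CT := .nd n11_283 n11_1307
def n11_795 : CT := .nd l795_ l2843_
def n11_1819 : CT := .nd l1819_ lz
def n10_795 : CT := .nd n11_795 n11_1819
def n9_283 : CT := .nd n10_283 n10_795
def n8_27 : CT := .nd n9_27 n9_283
def n11_155 : CT := .nd l155_ l2203_
def n11_1179 : CT := .nd l1179_ lz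
def n10_155 : CT := .nd n11_155 n11_1179
def n11_667 : CT := .nd l667_ l2715_
def n11_1691 : CT := .nd l1691_ lz
def n10_667 : CT := .nd n11_667 n11_1691
def n9_155 : CT := .nd n10_155 n10_667
def n11_411 : CT := .nd l411_ l2459_
def n11_1435 : CT := .nd l1435_ lz
def n10_411 : CT := .nd n11_411 n11_1435
def n11_923 : CT := .nd l923_ l2971_
def n11_1947 : CT := .nd l1947_ lz
def n10_923 : CT := .nd n11_923 n11_1947
def n9_411 : CT := .nd n10_411 n10_923
def n8_155 : CT := .nd n9_155 n9_411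
def n7_27 : CT := .nd n8_27 n8_155
def n11_91 : CT := .nd l91_ l2139_
def n11_1115 : CT := .nd l1115_ lz
def n10_91 : CT := .nd n11_91 n11_1115
def n11_603 : CT := .nd l603_ l2651_
def n11_1627 : CT := .nd l1627_ lz
def n10_603 : CT := .nd n11_603 n11_1627
def n9_91 : CT := .nd n10_91 n10_603
def n11_347 : CT := .nd l347_ l2395_
def n11_1371 : CT := .nd l1371_ lz
def n10_347 : CT := .nd n11_347 n11_1371
def n11_859 : CT := .nd l859_ l2907_
def n11_1883 : CT := .nd l1883_ lz
def n10_859 : CT := .nd n11_859 n11_1883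
def n9_347 : CT := .nd n10_347 n10_859
def n8_91 : CT := .nd n9_91 n9_347
def n11_219 : CT := .nd l219_ l2267_
def n11_1243 : CT := .nd l1243_ lz
def n10_219 : CT := .nd n11_219 n11_1243
def n11_731 : CT := .nd l731_ l2779_
def n11_1755 : CT := .nd l1755_ lz
def n10_731 : CT := .nd n11_731 n11_1755
def n9_219 : CT := .nd n10_219 n10_731
def n11_475 : CT := .nd l475_ l2523_
def n11_1499 : CT := .nd l1499_ lz
def n10_475 : CT := .nd n11_475 n11_1499
def n11_987 : CT := .nd l987_ lz
def n11_2011 : CT := .nd l2011_ lz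
def n10_987 : CT := .nd n11_987 n11_2011
def n9_475 : CT := .nd n10_475 n10_987
def n8_219 : CT := .nd n9_219 n9_475
def n7_91 : CT := .nd n8_91 n8_219
def n6_27 : CT := .nd n7_27 n7_91
def n11_59 : CT := .nd l59_ l2107_
def n11_1083 : CT := .nd l1083_ lz
def n10_59 : CT := .nd n11_59 n11_1083
def n11_571 : CT := .nd l571_ l2619_
def n11_1595 : CT := .nd l1595_ lz
def n10_571 : CT := .nd n11_571 n11_1595
def n9_59 : CT := .nd n10_59 n10_571
def n11_315 : CT := .nd l315_ l2363_
def n11_1339 : CT := .nd l1339_ lz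
def n10_315 : CT := .nd n11_315 n11_1339
def n11_827 : CT := .nd l827_ l2875_
def n11_1851 : CT := .nd l1851_ lz
def n10_827 : CT := .nd n11_827 n11_1851
def n9_315 : CT := .nd n10_315 n10_827
def n8_59 : CT := .nd n9_59 n9_315
def n11_187 : CT := .nd l187_ l2235_
def n11_1211 : CT := .nd l1211_ lz
def n10_187 : CT := .nd n11_187 n11_1211
def n11_699 : CT := .nd l699_ l2747_
def n11_1723 : CT := .nd l1723_ lz
def n10_699 : CT := .nd n11_699 n11_1723
def n9_187 : CT := .nd n10_187 n10_699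
def n11_443 : CT := .nd l443_ l2491_
def n11_1467 : CT := .nd l1467_ lz
def n10_443 : CT := .nd n11_443 n11_1467
def n11_955 : CT := .nd l955_ lz
def n11_1979 : CT := .nd l1979_ lz
def n10_955 : CT := .nd n11_955 n11_1979
def n9_443 : CT := .nd n10_443 n10_955
def n8_187 : CT := .nd n9_187 n9_443
def n7_59 : CT := .nd n8_59 n8_187
def n11_123 : CT := .nd l123_ l2171_
def n11_1147 : CT := .nd l1147_ lz
def n10_123 : CT := .nd n11_123 n11_1147
def n11_635 : CT := .nd l635_ l2683_
def n11_1659 : CT := .nd l1659_ lz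
def n10_635 : CT := .nd n11_635 n11_1659
def n9_123 : CT := .nd n10_123 n10_635
def n11_379 : CT := .nd l379_ l2427_
def n11_1403 : CT := .nd l1403_ lz
def n10_379 : CT := .nd n11_379 n11_1403
def n11_891 : CT := .nd l891_ l2939_
def n11_1915 : CT := .nd l1915_ lz
def n10_891 : CT := .nd n11_891 n11_1915
def n9_379 : CT := .nd n10_379 n10_891
def n8_123 : CT := .nd n9_123 n9_379
def n11_251 : CT := .nd l251_ l2299_
def n11_1275 : CT := .nd l1275_ lz
def n10_251 : CT := .nd n11_251 n11_1275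
def n11_763 : CT := .nd l763_ l2811_
def n11_1787 : CT := .nd l1787_ lz
def n10_763 : CT := .nd n11_763 n11_1787
def n9_251 : CT := .nd n10_251 n10_763
def n11_507 : CT := .nd l507_ l2555_
def n11_1531 : CT := .nd l1531_ lz
def n10_507 : CT := .nd n11_507 n11_1531
def n11_1019 : CT := .nd l1019_ lz
def n11_2043 : CT := .nd l2043_ lz
def n10_1019 : CT := .nd n11_1019 n11_2043
def n9_507 : CT := .nd n10_507 n10_1019
def n8_251 : CT := .nd n9_251 n9_507
def n7_123 : CT := .nd n8_123 n8_251
def n6_59 : CT := .nd n7_59 n7_123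
def n5_27 : CT := .nd n6_27 n6_59
def n4_11 : CT := .nd n5_11 n5_27
def n3_3 : CT := .nd n4_3 n4_11
def n11_7 : CT := .nd l7_ l2055_
def n11_1031 : CT := .nd l1031_ lz
def n10_7 : CT := .nd n11_7 n11_1031
def n11_519 : CT := .nd l519_ l2567_
def n11_1543 : CT := .nd l1543_ lz
def n10_519 : CT := .nd n11_519 n11_1543
def n9_7 : CT := .nd n10_7 n10_519
def n11_263 : CT := .nd l263_ l2311_
def n11_1287 : CT := .nd l1287_ lz
def n10_263 : CT := .nd n11_263 n11_1287
def n11_775 : CT := .nd l775_ l2823_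
def n11_1799 : CT := .nd l1799_ lz
def n10_775 : CT := .nd n11_775 n11_1799
def n9_263 : CT := .nd n10_263 n10_775
def n8_7 : CT := .nd n9_7 n9_263
def n11_135 : CT := .nd l135_ l2183_
def n11_1159 : CT := .nd l1159_ lz
def n10_135 : CT := .nd n11_135 n11_1159
def n11_647 : CT := .nd l647_ l2695_
def n11_1671 : CT := .nd l1671_ lz
def n10_647 : CT := .nd n11_647 n11_1671
def n9_135 : CT := .nd n10_135 n10_647
def n11_391 : CT := .nd l391_ l2439_
def n11_1415 : CT := .nd l1415_ lz
def n10_391 : CT := .nd n11_391 n11_1415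
def n11_903 : CT := .nd l903_ l2951_
def n11_1927 : CT := .nd l1927_ lz
def n10_903 : CT := .nd n11_903 n11_1927
def n9_391 : CT := .nd n10_391 n10_903
def n8_135 : CT := .nd n9_135 n9_391
def n7_7 : CT := .nd n8_7 n8_135
def n11_71 : CT := .nd l71_ l2119_
def n11_1095 : CT := .nd l1095_ lz
def n10_71 : CT := .nd n11_71 n11_1095
def n11_583 : CT := .nd l583_ l2631_
def n11_1607 : CT := .nd l1607_ lz
def n10_583 : CT := .nd n11_583 n11_1607
def n9_71 : CT := .nd n10_71 n10_583
def n11_327 : CT := .nd l327_ l2375_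
def n11_1351 : CT := .nd l1351_ lz
def n10_327 : CT := .nd n11_327 n11_1351
def n11_839 : CT := .nd l839_ l2887_
def n11_1863 : CT := .nd l1863_ lz
def n10_839 : CT := .nd n11_839 n11_1863
def n9_327 : CT := .nd n10_327 n10_839
def n8_71 : CT := .nd n9_71 n9_327
def n11_199 : CT := .nd l199_ l2247_
def n11_1223 : CT := .nd l1223_ lz
def n10_199 : CT := .nd n11_199 n11_1223
def n11_711 : CT := .nd l711_ l2759_
def n11_1735 : CT := .nd l1735_ lz
def n10_711 : CT := .nd n11_711 n11_1735
def n9_199 : CT := .nd n10_199 n10_711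
def n11_455 : CT := .nd l455_ l2503_
def n11_1479 : CT := .nd l1479_ lz
def n10_455 : CT := .nd n11_455 n11_1479
def n11_967 : CT := .nd l967_ lz
def n11_1991 : CT := .nd l1991_ lz
def n10_967 : CT := .nd n11_967 n11_1991
def n9_455 : CT := .nd n10_455 n10_967
def n8_199 : CT := .nd n9_199 n9_455
def n7_71 : CT := .nd n8_71 n8_199
def n6_7 : CT := .nd n7_7 n7_71
def n11_39 : CT := .nd l39_ l2087_
def n11_1063 : CT := .nd l1063_ lz
def n10_39 : CT := .nd n11_39 n11_1063
def n11_551 : CT := .nd l551_ l2599_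
def n11_1575 : CT := .nd l1575_ lz
def n10_551 : CT := .nd n11_551 n11_1575
def n9_39 : CT := .nd n10_39 n10_551
def n11_295 : CT := .nd l295_ l2343_
def n11_1319 : CT := .nd l1319_ lz
def n10_295 : CT := .nd n11_295 n11_1319
def n11_807 : CT := .nd l807_ l2855_
def n11_1831 : CT := .nd l1831_ lz
def n10_807 : CT := .nd n11_807 n11_1831
def n9_295 : CT := .nd n10_295 n10_807
def n8_39 : CT := .nd n9_39 n9_295
def n11_167 : CT := .nd l167_ l2215_
def n11_1191 : CT := .nd l1191_ lz
def n10_167 : CT := .nd n11_167 n11_1191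
def n11_679 : CT := .nd l679_ l2727_
def n11_1703 : CT := .nd l1703_ lz
def n10_679 : CT := .nd n11_679 n11_1703
def n9_167 : CT := .nd n10_167 n10_679
def n11_423 : CT := .nd l423_ l2471_
def n11_1447 : CT := .nd l1447_ lz
def n10_423 : CT := .nd n11_423 n11_1447
def n11_935 : CT := .nd l935_ l2983_
def n11_1959 : CT := .nd l1959_ lz
def n10_935 : CT := .nd n11_935 n11_1959
def n9_423 : CT := .nd n10_423 n10_935
def n8_167 : CT := .nd n9_167 n9_423
def n7_39 : CT := .nd n8_39 n8_167
def n11_103 : CT := .nd l103_ l2151_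
def n11_1127 : CT := .nd l1127_ lz
def n10_103 : CT := .nd n11_103 n11_1127
def n11_615 : CT := .nd l615_ l2663_
def n11_1639 : CT := .nd l1639_ lz
def n10_615 : CT := .nd n11_615 n11_1639
def n9_103 : CT := .nd n10_103 n10_615
def n11_359 : CT := .nd l359_ l2407_
def n11_1383 : CT := .nd l1383_ lz
def n10_359 : CT := .nd n11_359 n11_1383
def n11_871 : CT := .nd l871_ l2919_
def n11_1895 : CT := .nd l1895_ lz
def n10_871 : CT := .nd n11_871 n11_1895
def n9_359 : CT := .nd n10_359 n10_871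
def n8_103 : CT := .nd n9_103 n9_359
def n11_231 : CT := .nd l231_ l2279_
def n11_1255 : CT := .nd l1255_ lz
def n10_231 : CT := .nd n11_231 n11_1255
def n11_743 : CT := .nd l743_ l2791_
def n11_1767 : CT := .nd l1767_ lz
def n10_743 : CT := .nd n11_743 n11_1767
def n9_231 : CT := .nd n10_231 n10_743
def n11_487 : CT := .nd l487_ l2535_
def n11_1511 : CT := .nd l1511_ lz
def n10_487 : CT := .nd n11_487 n11_1511
def n11_999 : CT := .nd l999_ lz
def n11_2023 : CT := .nd l2023_ lz
def n10_999 : CT := .nd n11_999 n11_2023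
def n9_487 : CT := .nd n10_487 n10_999
def n8_231 : CT := .nd n9_231 n9_487
def n7_103 : CT := .nd n8_103 n8_231
def n6_39 : CT := .nd n7_39 n7_103
def n5_7 : CT := .nd n6_7 n6_39
def n11_23 : CT := .nd l23_ l2071_
def n11_1047 : CT := .nd l1047_ lz
def n10_23 : CT := .nd n11_23 n11_1047
def n11_535 : CT := .nd l535_ l2583_
def n11_1559 : CT := .nd l1559_ lz
def n10_535 : CT := .nd n11_535 n11_1559
def n9_23 : CT := .nd n10_23 n10_535
def n11_279 : CT := .nd l279_ l2327_
def n11_1303 : CT := .nd l1303_ lz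
def n10_279 : CT := .nd n11_279 n11_1303
def n11_791 : CT := .nd l791_ l2839_
def n11_1815 : CT := .nd l1815_ lz
def n10_791 : CT := .nd n11_791 n11_1815
def n9_279 : CT := .nd n10_279 n10_791
def n8_23 : CT := .nd n9_23 n9_279
def n11_151 : CT := .nd l151_ l2199_
def n11_1175 : CT := .nd l1175_ lz
def n10_151 : CT := .nd n11_151 n11_1175
def n11_663 : CT := .nd l663_ l2711_
def n11_1687 : CT := .nd l1687_ lz
def n10_663 : CT := .nd n11_663 n11_1687
def n9_151 : CT := .nd n10_151 n10_663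
def n11_407 : CT := .nd l407_ l2455_
def n11_1431 : CT := .nd l1431_ lz
def n10_407 : CT := .nd n11_407 n11_1431
def n11_919 : CT := .nd l919_ l2967_
def n11_1943 : CT := .nd l1943_ lz
def n10_919 : CT := .nd n11_919 n11_1943
def n9_407 : CT := .nd n10_407 n10_919
def n8_151 : CT := .nd n9_151 n9_407
def n7_23 : CT := .nd n8_23 n8_151
def n11_87 : CT := .nd l87_ l2135_
def n11_1111 : CT := .nd l1111_ lz
def n10_87 : CT := .nd n11_87 n11_1111
def n11_599 : CT := .nd l599_ l2647_
def n11_1623 : CT := .nd l1623_ lz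
def n10_599 : CT := .nd n11_599 n11_1623
def n9_87 : CT := .nd n10_87 n10_599
def n11_343 : CT := .nd l343_ l2391_
def n11_1367 : CT := .nd l1367_ lz
def n10_343 : CT := .nd n11_343 n11_1367
def n11_855 : CT := .nd l855_ l2903_
def n11_1879 : CT := .nd l1879_ lz
def n10_855 : CT := .nd n11_855 n11_1879
def n9_343 : CT := .nd n10_343 n10_855
def n8_87 : CT := .nd n9_87 n9_343
def n11_215 : CT := .nd l215_ l2263_
def n11_1239 : CT := .nd l1239_ lz
def n10_215 : CT := .nd n11_215 n11_1239
def n11_727 : CT := .nd l727_ l2775_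
def n11_1751 : CT := .nd l1751_ lz
def n10_727 : CT := .nd n11_727 n11_1751
def n9_215 : CT := .nd n10_215 n10_727
def n11_471 : CT := .nd l471_ l2519_
def n11_1495 : CT := .nd l1495_ lz
def n10_471 : CT := .nd n11_471 n11_1495
def n11_983 : CT := .nd l983_ lz
def n11_2007 : CT := .nd l2007_ lz
def n10_983 : CT := .nd n11_983 n11_2007
def n9_471 : CT := .nd n10_471 n10_983
def n8_215 : CT := .nd n9_215 n9_471
def n7_87 : CT := .nd n8_87 n8_215
def n6_23 : CT := .nd n7_23 n7_87
def n11_55 : CT := .nd l55_ l2103_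
def n11_1079 : CT := .nd l1079_ lz
def n10_55 : CT := .nd n11_55 n11_1079
def n11_567 : CT := .nd l567_ l2615_
def n11_1591 : CT := .nd l1591_ lz
def n10_567 : CT := .nd n11_567 n11_1591
def n9_55 : CT := .nd n10_55 n10_567
def n11_311 : CT := .nd l311_ l2359_
def n11_1335 : CT := .nd l1335_ lz
def n10_311 : CT := .nd n11_311 n11_1335
def n11_823 : CT := .nd l823_ l2871_
def n11_1847 : CT := .nd l1847_ lz
def n10_823 : CT := .nd n11_823 n11_1847
def n9_311 : CT := .nd n10_311 n10_823
def n8_55 : CT := .nd n9_55 n9_311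
def n11_183 : CT := .nd l183_ l2231_
def n11_1207 : CT := .nd l1207_ lz
def n10_183 : CT := .nd n11_183 n11_1207
def n11_695 : CT := .nd l695_ l2743_
def n11_1719 : CT := .nd l1719_ lz
def n10_695 : CT := .nd n11_695 n11_1719
def n9_183 : CT := .nd n10_183 n10_695
def n11_439 : CT := .nd l439_ l2487_
def n11_1463 : CT := .nd l1463_ lz
def n10_439 : CT := .nd n11_439 n11_1463
def n11_951 : CT := .nd l951_ lz
def n11_1975 : CT := .nd l1975_ lz
def n10_951 : CT := .nd n11_951 n11_1975
def n9_439 : CT := .nd n10_439 n10_951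
def n8_183 : CT := .nd n9_183 n9_439
def n7_55 : CT := .nd n8_55 n8_183
def n11_119 : CT := .nd l119_ l2167_
def n11_1143 : CT := .nd l1143_ lz
def n10_119 : CT := .nd n11_119 n11_1143
def n11_631 : CT := .nd l631_ l2679_
def n11_1655 : CT := .nd l1655_ lz
def n10_631 : CT := .nd n11_631 n11_1655
def n9_119 : CT := .nd n10_119 n10_631
def n11_375 : CT := .nd l375_ l2423_
def n11_1399 : CT := .nd l1399_ lz
def n10_375 : CT := .nd n11_375 n11_1399
def n11_887 : CT := .nd l887_ l2935_
def n11_1911 : CT := .nd l1911_ lz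
def n10_887 : CT := .nd n11_887 n11_1911
def n9_375 : CT := .nd n10_375 n10_887
def n8_119 : CT := .nd n9_119 n9_375
def n11_247 : CT := .nd l247_ l2295_
def n11_1271 : CT := .nd l1271_ lz
def n10_247 : CT := .nd n11_247 n11_1271
def n11_759 : CT := .nd l759_ l2807_
def n11_1783 : CT := .nd l1783_ lz
def n10_759 : CT := .nd n11_759 n11_1783
def n9_247 : CT := .nd n10_247 n10_759
def n11_503 : CT := .nd l503_ l2551_
def n11_1527 : CT := .nd l1527_ lz
def n10_503 : CT := .nd n11_503 n11_1527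
def n11_1015 : CT := .nd l1015_ lz
def n11_2039 : CT := .nd l2039_ lz
def n10_1015 : CT := .nd n11_1015 n11_2039
def n9_503 : CT := .nd n10_503 n10_1015
def n8_247 : CT := .nd n9_247 n9_503
def n7_119 : CT := .nd n8_119 n8_247
def n6_55 : CT := .nd n7_55 n7_119
def n5_23 : CT := .nd n6_23 n6_55
def n4_7 : CT := .nd n5_7 n5_23
def n11_15 : CT := .nd l15_ l2063_
def n11_1039 : CT := .nd l1039_ lz
def n10_15 : CT := .nd n11_15 n11_1039
def n11_527 : CT := .nd l527_ l2575_
def n11_1551 : CT := .nd l1551_ lz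
def n10_527 : CT := .nd n11_527 n11_1551
def n9_15 : CT := .nd n10_15 n10_527
def n11_271 : CT := .nd l271_ l2319_
def n11_1295 : CT := .nd l1295_ lz
def n10_271 : CT := .nd n11_271 n11_1295
def n11_783 : CT := .nd l783_ l2831_
def n11_1807 : CT := .nd l1807_ lz
def n10_783 : CT := .nd n11_783 n11_1807
def n9_271 : CT := .nd n10_271 n10_783
def n8_15 : CT := .nd n9_15 n9_271
def n11_143 : CT := .nd l143_ l2191_
def n11_1167 : CT := .nd l1167_ lz
def n10_143 : CT := .nd n11_143 n11_1167
def n11_655 : CT := .nd l655_ l2703_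
def n11_1679 : CT := .nd l1679_ lz
def n10_655 : CT := .nd n11_655 n11_1679
def n9_143 : CT := .nd n10_143 n10_655
def n11_399 : CT := .nd l399_ l2447_
def n11_1423 : CT := .nd l1423_ lz
def n10_399 : CT := .nd n11_399 n11_1423
def n11_911 : CT := .nd l911_ l2959_
def n11_1935 : CT := .nd l1935_ lz
def n10_911 : CT := .nd n11_911 n11_1935
def n9_399 : CT := .nd n10_399 n10_911
def n8_143 : CT := .nd n9_143 n9_399
def n7_15 : CT := .nd n8_15 n8_143
def n11_79 : CT := .nd l79_ l2127_
def n11_1103 : CT := .nd l1103_ lz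
def n10_79 : CT := .nd n11_79 n11_1103
def n11_591 : CT := .nd l591_ l2639_
def n11_1615 : CT := .nd l1615_ lz
def n10_591 : CT := .nd n11_591 n11_1615
def n9_79 : CT := .nd n10_79 n10_591
def n11_335 : CT := .nd l335_ l2383_
def n11_1359 : CT := .nd l1359_ lz
def n10_335 : CT := .nd n11_335 n11_1359
def n11_847 : CT := .nd l847_ l2895_
def n11_1871 : CT := .nd l1871_ lz
def n10_847 : CT := .nd n11_847 n11_1871
def n9_335 : CT := .nd n10_335 n10_847
def n8_79 : CT := .nd n9_79 n9_335
def n11_207 : CT := .nd l207_ l2255_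
def n11_1231 : CT := .nd l1231_ lz
def n10_207 : CT := .nd n11_207 n11_1231
def n11_719 : CT := .nd l719_ l2767_
def n11_1743 : CT := .nd l1743_ lz
def n10_719 : CT := .nd n11_719 n11_1743
def n9_207 : CT := .nd n10_207 n10_719
def n11_463 : CT := .nd l463_ l2511_
def n11_1487 : CT := .nd l1487_ lz
def n10_463 : CT := .nd n11_463 n11_1487
def n11_975 : CT := .nd l975_ lz
def n11_1999 : CT := .nd l1999_ lz
def n10_975 : CT := .nd n11_975 n11_1999
def n9_463 : CT := .nd n10_463 n10_975
def n8_207 : CT := .nd n9_207 n9_463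
def n7_79 : CT := .nd n8_79 n8_207
def n6_15 : CT := .nd n7_15 n7_79
def n11_47 : CT := .nd l47_ l2095_
def n11_1071 : CT := .nd l1071_ lz
def n10_47 : CT := .nd n11_47 n11_1071
def n11_559 : CT := .nd l559_ l2607_
def n11_1583 : CT := .nd l1583_ lz
def n10_559 : CT := .nd n11_559 n11_1583
def n9_47 : CT := .nd n10_47 n10_559
def n11_303 : CT := .nd l303_ l2351_
def n11_1327 : CT := .nd l1327_ lz
def n10_303 : CT := .nd n11_303 n11_1327
def n11_815 : CT := .nd l815_ l2863_
def n11_1839 : CT := .nd l1839_ lz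
def n10_815 : CT := .nd n11_815 n11_1839
def n9_303 : CT := .nd n10_303 n10_815
def n8_47 : CT := .nd n9_47 n9_303
def n11_175 : CT := .nd l175_ l2223_
def n11_1199 : CT := .nd l1199_ lz
def n10_175 : CT := .nd n11_175 n11_1199
def n11_687 : CT := .nd l687_ l2735_
def n11_1711 : CT := .nd l1711_ lz
def n10_687 : CT := .nd n11_687 n11_1711
def n9_175 : CT := .nd n10_175 n10_687
def n11_431 : CT := .nd l431_ l2479_
def n11_1455 : CT := .nd l1455_ lz
def n10_431 : CT := .nd n11_431 n11_1455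
def n11_943 : CT := .nd l943_ lz
def n11_1967 : CT := .nd l1967_ lz
def n10_943 : CT := .nd n11_943 n11_1967
def n9_431 : CT := .nd n10_431 n10_943
def n8_175 : CT := .nd n9_175 n9_431
def n7_47 : CT := .nd n8_47 n8_175
def n11_111 : CT := .nd l111_ l2159_
def n11_1135 : CT := .nd l1135_ lz
def n10_111 : CT := .nd n11_111 n11_1135
def n11_623 : CT := .nd l623_ l2671_
def n11_1647 : CT := .nd l1647_ lz
def n10_623 : CT := .nd n11_623 n11_1647
def n9_111 : CT := .nd n10_111 n10_623
def n11_367 : CT := .nd l367_ l2415_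
def n11_1391 : CT := .nd l1391_ lz
def n10_367 : CT := .nd n11_367 n11_1391
def n11_879 : CT := .nd l879_ l2927_
def n11_1903 : CT := .nd l1903_ lz
def n10_879 : CT := .nd n11_879 n11_1903
def n9_367 : CT := .nd n10_367 n10_879
def n8_111 : CT := .nd n9_111 n9_367
def n11_239 : CT := .nd l239_ l2287_
def n11_1263 : CT := .nd l1263_ lz
def n10_239 : CT := .nd n11_239 n11_1263
def n11_751 : CT := .nd l751_ l2799_
def n11_1775 : CT := .nd l1775_ lz
def n10_751 : CT := .nd n11_751 n11_1775
def n9_239 : CT := .nd n10_239 n10_751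
def n11_495 : CT := .nd l495_ l2543_
def n11_1519 : CT := .nd l1519_ lz
def n10_495 : CT := .nd n11_495 n11_1519
def n11_1007 : CT := .nd l1007_ lz
def n11_2031 : CT := .nd l2031_ lz
def n10_1007 : CT := .nd n11_1007 n11_2031
def n9_495 : CT := .nd n10_495 n10_1007
def n8_239 : CT := .nd n9_239 n9_495
def n7_111 : CT := .nd n8_111 n8_239
def n6_47 : CT := .nd n7_47 n7_111
def n5_15 : CT := .nd n6_15 n6_47
def n11_31 : CT := .nd l31_ l2079_
def n11_1055 : CT := .nd l1055_ lz
def n10_31 : CT := .nd n11_31 n11_1055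
def n11_543 : CT := .nd l543_ l2591_
def n11_1567 : CT := .nd l1567_ lz
def n10_543 : CT := .nd n11_543 n11_1567
def n9_31 : CT := .nd n10_31 n10_543
def n11_287 : CT := .nd l287_ l2335_
def n11_1311 : CT := .nd l1311_ lz
def n10_287 : CT := .nd n11_287 n11_1311
def n11_799 : CT := .nd l799_ l2847_
def n11_1823 : CT := .nd l1823_ lz
def n10_799 : CT := .nd n11_799 n11_1823
def n9_287 : CT := .nd n10_287 n10_799
def n8_31 : CT := .nd n9_31 n9_287
def n11_159 : CT := .nd l159_ l2207_
def n11_1183 : CT := .nd l1183_ lz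
def n10_159 : CT := .nd n11_159 n11_1183
def n11_671 : CT := .nd l671_ l2719_
def n11_1695 : CT := .nd l1695_ lz
def n10_671 : CT := .nd n11_671 n11_1695
def n9_159 : CT := .nd n10_159 n10_671
def n11_415 : CT := .nd l415_ l2463_
def n11_1439 : CT := .nd l1439_ lz
def n10_415 : CT := .nd n11_415 n11_1439
def n11_927 : CT := .nd l927_ l2975_
def n11_1951 : CT := .nd l1951_ lz
def n10_927 : CT := .nd n11_927 n11_1951
def n9_415 : CT := .nd n10_415 n10_927
def n8_159 : CT := .nd n9_159 n9_415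
def n7_31 : CT := .nd n8_31 n8_159
def n11_95 : CT := .nd l95_ l2143_
def n11_1119 : CT := .nd l1119_ lz
def n10_95 : CT := .nd n11_95 n11_1119
def n11_607 : CT := .nd l607_ l2655_
def n11_1631 : CT := .nd l1631_ lz
def n10_607 : CT := .nd n11_607 n11_1631
def n9_95 : CT := .nd n10_95 n10_607
def n11_351 : CT := .nd l351_ l2399_
def n11_1375 : CT := .nd l1375_ lz
def n10_351 : CT := .nd n11_351 n11_1375
def n11_863 : CT := .nd l863_ l2911_
def n11_1887 : CT := .nd l1887_ lz
def n10_863 : CT := .nd n11_863 n11_1887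
def n9_351 : CT := .nd n10_351 n10_863
def n8_95 : CT := .nd n9_95 n9_351
def n11_223 : CT := .nd l223_ l2271_
def n11_1247 : CT := .nd l1247_ lz
def n10_223 : CT := .nd n11_223 n11_1247
def n11_735 : CT := .nd l735_ l2783_
def n11_1759 : CT := .nd l1759_ lz
def n10_735 : CT := .nd n11_735 n11_1759
def n9_223 : CT := .nd n10_223 n10_735
def n11_479 : CT := .nd l479_ l2527_
def n11_1503 : CT := .nd l1503_ lz
def n10_479 : CT := .nd n11_479 n11_1503
def n11_991 : CT := .nd l991_ lz
def n11_2015 : CT := .nd l2015_ lz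
def n10_991 : CT := .nd n11_991 n11_2015
def n9_479 : CT := .nd n10_479 n10_991
def n8_223 : CT := .nd n9_223 n9_479
def n7_95 : CT := .nd n8_95 n8_223
def n6_31 : CT := .nd n7_31 n7_95
def n11_63 : CT := .nd l63_ l2111_
def n11_1087 : CT := .nd l1087_ lz
def n10_63 : CT := .nd n11_63 n11_1087
def n11_575 : CT := .nd l575_ l2623_
def n11_1599 : CT := .nd l1599_ lz
def n10_575 : CT := .nd n11_575 n11_1599
def n9_63 : CT := .nd n10_63 n10_575
def n11_319 : CT := .nd l319_ l2367_
def n11_1343 : CT := .nd l1343_ lz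
def n10_319 : CT := .nd n11_319 n11_1343
def n11_831 : CT := .nd l831_ l2879_
def n11_1855 : CT := .nd l1855_ lz
def n10_831 : CT := .nd n11_831 n11_1855
def n9_319 : CT := .nd n10_319 n10_831
def n8_63 : CT := .nd n9_63 n9_319
def n11_191 : CT := .nd l191_ l2239_
def n11_1215 : CT := .nd l1215_ lz
def n10_191 : CT := .nd n11_191 n11_1215
def n11_703 : CT := .nd l703_ l2751_
def n11_1727 : CT := .nd l1727_ lz
def n10_703 : CT := .nd n11_703 n11_1727
def n9_191 : CT := .nd n10_191 n10_703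
def n11_447 : CT := .nd l447_ l2495_
def n11_1471 : CT := .nd l1471_ lz
def n10_447 : CT := .nd n11_447 n11_1471
def n11_959 : CT := .nd l959_ lz
def n11_1983 : CT := .nd l1983_ lz
def n10_959 : CT := .nd n11_959 n11_1983
def n9_447 : CT := .nd n10_447 n10_959
def n8_191 : CT := .nd n9_191 n9_447
def n7_63 : CT := .nd n8_63 n8_191
def n11_127 : CT := .nd l127_ l2175_
def n11_1151 : CT := .nd l1151_ lz
def n10_127 : CT := .nd n11_127 n11_1151
def n11_639 : CT := .nd l639_ l2687_
def n11_1663 : CT := .nd l1663_ lz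
def n10_639 : CT := .nd n11_639 n11_1663
def n9_127 : CT := .nd n10_127 n10_639
def n11_383 : CT := .nd l383_ l2431_
def n11_1407 : CT := .nd l1407_ lz
def n10_383 : CT := .nd n11_383 n11_1407
def n11_895 : CT := .nd l895_ l2943_
def n11_1919 : CT := .nd l1919_ lz
def n10_895 : CT := .nd n11_895 n11_1919
def n9_383 : CT := .nd n10_383 n10_895
def n8_127 : CT := .nd n9_127 n9_383
def n11_255 : CT := .nd l255_ l2303_
def n11_1279 : CT := .nd l1279_ lz
def n10_255 : CT := .nd n11_255 n11_1279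
def n11_767 : CT := .nd l767_ l2815_
def n11_1791 : CT := .nd l1791_ lz
def n10_767 : CT := .nd n11_767 n11_1791
def n9_255 : CT := .nd n10_255 n10_767
def n11_511 : CT := .nd l511_ l2559_
def n11_1535 : CT := .nd l1535_ lz
def n10_511 : CT := .nd n11_511 n11_1535
def n11_1023 : CT := .nd l1023_ lz
def n11_2047 : CT := .nd l2047_ lz
def n10_1023 : CT := .nd n11_1023 n11_2047
def n9_511 : CT := .nd n10_511 n10_1023
def n8_255 : CT := .nd n9_255 n9_511
def n7_127 : CT := .nd n8_127 n8_255
def n6_63 : CT := .nd n7_63 n7_127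
def n5_31 : CT := .nd n6_31 n6_63
def n4_15 : CT := .nd n5_15 n5_31
def n3_7 : CT := .nd n4_7 n4_15
def n2_3 : CT := .nd n3_3 n3_7
def n1_1 : CT := .nd n2_1 n2_3
def n0_0 : CT := .nd n1_0 n1_1

def ct : CT := n0_0

end Vale.Agent.P355.H950T
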